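import Crest.Agent.N221.Ex.Main
import Crest.Agent.N221.Dy.Sp

/-! Row 221, block EXIT (helper94): the abstract atlas instantiated by the Darboux atlas. -/

set_option autoImplicit false
set_option linter.unusedSectionVars false
set_option linter.unusedVariables false

open MeasureTheory Set Filter Topology Metric
open scoped ContDiff RealInnerProductSpace ENNReal
open Crest.GeometryTopology.Submanifold
open Crest.Agent.R241.DDefs Crest.Agent.R241.D2
open Crest.Agent.R208.J Crest.Agent.R208.L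

noncomputable section

namespace Crest.Agent.N221.Cov

variable {n N m : ℕ} {a : ℝ} {S : Set (Euc N)} {G : Geo n N (-(a ^ 2)) S} (C : Cov G)
variable {f f' f'' : FF n N m} {z z' : ZZ m} {x y y' ξ η : Euc n} {v u u' : Euc N} {q q' : Euc m}
  {g : Euc n → Euc n} {s t : ℝ}
open Ex




variable {R0 ρ T R : ℝ} {D : Set {f : FF n N m // C.Frm f}}





variable (H : Hyp n N a S) (hm : m + 1 = n)
include H hm

lemma ub_Tf (R : ℝ) : UB (fun p : {p : FF n N m × FF n N m //
      C.Frm p.1 ∧ C.Frm p.2 ∧ C.dd p.1.1 p.2.1 ≤ R} => C.dm p.1.1 p.1.2) fun p => C.Tf p.1.1 p.1.2 :=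
  ⟨fun p => C.isOpen_dm H hm p.2.1 p.2.2.1,
    fun p _ hz => (C.contDiffAt_Tf H hm p.2.1 p.2.2.1 hz).contDiffWithinAt, fun k => by
      obtain ⟨B, hB⟩ := C.jb_Tf H hm R k
      exact ⟨max B 1, by positivity, fun p z hz =>
        (hB (p.1, z) ⟨p.2.1, p.2.2.1, p.2.2.2, hz⟩).trans (le_max_left _ _)⟩⟩









end Crest.Agent.N221.Cov
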