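import Mathlib

-- ▼ part N221/Ex/Defs
section

/-!
Row 221, block EXIT (helper71), abstract part.  An atlas of charts `E × E` with two transverse
families of graphs, each contracted along a chain of charts.  A bounded continuous invariant
section of a uniformly smooth linear cocycle that is uniformly smooth in the charts of a family
`Gd` visited by a dense set of chains is smooth everywhere (`Ex/Main`).
-/

set_option autoImplicit false

open Set Metric
open scoped ContDiff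

namespace Crest.Agent.N221.Ex

/-- uniformly smooth family of maps on open sets -/
structure UB {ι X Y : Type} [NormedAddCommGroup X] [NormedSpace ℝ X] [NormedAddCommGroup Y]
    [NormedSpace ℝ Y] (U : ι → Set X) (φ : ι → X → Y) : Prop where
  op : ∀ i, IsOpen (U i)
  sm : ∀ i, ContDiffOn ℝ ∞ (φ i) (U i)
  bd : ∀ k : ℕ, ∃ c : ℝ, 0 < c ∧ ∀ i, ∀ x ∈ U i, ‖iteratedFDeriv ℝ k (φ i) x‖ ≤ c

/-- charts `ball 0 r ⊆ E × E` indexed by `F`, transitions `T f f'` on `dom f f'` -/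
structure Atl (E : Type) where
  F : Type
  r : ℝ
  ρ : ℝ
  cl : F → F → Prop
  dom : F → F → Set (E × E)
  T : F → F → E × E → E × E
  Gd : Set F

/-- a family of graphs `g f z` through the points `z` of the charts and its contracting chain -/
structure Side {E : Type} (At : Atl E) where
  g : At.F → E × E → E → E
  nx : At.F → At.F
  R : ℝ
  κ : ℝ

variable {E : Type} [NormedAddCommGroup E] [NormedSpace ℝ E]

/-- pairs of close charts -/
abbrev Atl.P (At : Atl E) : Type := {p : At.F × At.F // At.cl p.1 p.2}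

/-- points of charts -/
abbrev Atl.Q (At : Atl E) : Type := {p : At.F × (E × E) // p.2 ∈ ball (0 : E × E) At.r}

structure Atl.Ok (At : Atl E) : Prop where
  r_pos : 0 < At.r
  ρ_le : At.ρ ≤ At.r
  ub : UB (fun p : At.P => At.dom p.1.1 p.1.2) (fun p => At.T p.1.1 p.1.2)
  sub : ∀ f f', At.dom f f' ⊆ ball 0 At.r
  maps : ∀ f f', MapsTo (At.T f f') (At.dom f f') (ball 0 At.r)
  ctr : ∀ f, ∀ z ∈ ball (0 : E × E) At.r, ∃ f', At.cl f f' ∧ z ∈ At.dom f f' ∧ At.T f f' z = 0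

structure Side.Ok {At : Atl E} (S : Side At) : Prop where
  R_pos : 0 < S.R
  R_le : S.R ≤ At.r
  κ_pos : 0 < S.κ
  κ_lt : S.κ < 1
  ub : UB (fun _ : At.Q => ball (0 : E) At.r) (fun p => S.g p.1.1 p.1.2)
  cont : ∀ f, ContinuousOn (fun p : (E × E) × E => S.g f p.1 p.2) (ball 0 At.r ×ˢ ball 0 At.r)
  on : ∀ f, ∀ z ∈ ball (0 : E × E) At.r, S.g f z z.1 = z.2
  nat : ∀ f f', At.cl f f' → ∀ z ∈ At.dom f f', ∀ q, (q, S.g f z q) ∈ At.dom f f' →
    (At.T f f' (q, S.g f z q)).2 = S.g f' (At.T f f' z) (At.T f f' (q, S.g f z q)).1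
  cl : ∀ f, At.cl f (S.nx f)
  zero : ∀ f, At.T f (S.nx f) 0 = 0
  con : ∀ f, ∀ q ∈ ball (0 : E) S.R, (q, S.g f 0 q) ∈ At.dom f (S.nx f) ∧
    (q, S.g f 0 q) ∈ ball (0 : E × E) At.ρ ∧ ‖(At.T f (S.nx f) (q, S.g f 0 q)).1‖ ≤ S.κ * ‖q‖
  dense : ∀ f, ∃ δ > 0, ∀ z ∈ ball (0 : E × E) δ, ∀ ε > 0, ∃ z' ∈ ball (0 : E × E) δ, ∃ f',
    ‖z' - z‖ < ε ∧ At.cl f f' ∧ ball 0 δ ⊆ At.dom f f' ∧ At.T f f' z' = 0 ∧
      ∀ J, ∃ j, J ≤ j ∧ S.nx^[j] f' ∈ At.Gd

/-- slope of the graph through `z` at `z` -/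
noncomputable def Side.sl {At : Atl E} (S : Side At) (f : At.F) (z : E × E) : E →L[ℝ] E :=
  fderiv ℝ (S.g f z) z.1

/-- uniform transversality and local product structure -/
structure Trans {At : Atl E} (S U : Side At) : Prop where
  low : ∃ c > 0, ∀ f, ∀ z ∈ ball (0 : E × E) At.r, ∀ e, c * ‖e‖ ≤ ‖U.sl f z e - S.sl f z e‖
  corner : ∀ f, ∀ ε > 0, ∃ δ > 0, ∀ z ∈ ball (0 : E × E) δ, ∀ z' ∈ ball (0 : E × E) δ,
    ∃ q ∈ ball (0 : E) ε, U.g f z q = S.g f z' q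

/-- bounded continuous invariant section, uniformly smooth in the charts of `Gd` -/
structure Sec (At : Atl E) {V : Type} [NormedAddCommGroup V] [NormedSpace ℝ V]
    (A : At.F → At.F → E × E → V →L[ℝ] V) (s : At.F → E × E → V) : Prop where
  ub : UB (fun p : At.P => At.dom p.1.1 p.1.2) (fun p => A p.1.1 p.1.2)
  cont : ∀ f, ContinuousOn (s f) (ball 0 At.r)
  bdd : ∃ M : ℝ, 0 < M ∧ ∀ f, ∀ z ∈ ball (0 : E × E) At.r, ‖s f z‖ ≤ M
  rel : ∀ f f', At.cl f f' → ∀ z ∈ At.dom f f', s f z = A f f' z (s f' (At.T f f' z))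
  gd : UB (fun _ : At.Gd => ball (0 : E × E) At.ρ) (fun f => s f)

/-- first order expansion of `s` along the graphs, uniform constant, continuous slope -/
def Leaf {At : Atl E} (S : Side At) {V : Type} [NormedAddCommGroup V] [NormedSpace ℝ V]
    (s : At.F → E × E → V) : Prop :=
  ∃ C : ℝ, 0 < C ∧ ∀ f, ∃ δ > 0, ∃ L : E × E → E →L[ℝ] V, ContinuousOn L (ball 0 δ) ∧
    ∀ z ∈ ball (0 : E × E) δ, ‖L z‖ ≤ C ∧ ∀ q ∈ ball (0 : E) δ,
      ‖s f (q, S.g f z q) - s f z - L z (q - z.1)‖ ≤ C * ‖q - z.1‖ ^ 2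

end Crest.Agent.N221.Ex
end

-- ▼ part N221/Ex/UB

/-! Row 221, block EXIT: calculus of uniformly smooth families. -/

set_option autoImplicit false

open Set Metric
open scoped ContDiff

namespace Crest.Agent.N221.Ex

variable {ι ι' X Y W : Type} [NormedAddCommGroup X] [NormedSpace ℝ X] [NormedAddCommGroup Y]
  [NormedSpace ℝ Y] [NormedAddCommGroup W] [NormedSpace ℝ W] {U : ι → Set X} {φ φ' : ι → X → Y}

theorem UB.at (h : UB U φ) {i : ι} {x : X} (hx : x ∈ U i) : ContDiffAt ℝ ∞ (φ i) x :=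
  (h.sm i).contDiffAt ((h.op i).mem_nhds hx)

theorem le_infty (k : ℕ) : (k : WithTop ℕ∞) ≤ ∞ := by exact_mod_cast le_top

/-- reindex and shrink -/
theorem UB.mono (h : UB U φ) (e : ι' → ι) {U' : ι' → Set X} (ho : ∀ j, IsOpen (U' j))
    (hs : ∀ j, U' j ⊆ U (e j)) : UB U' fun j => φ (e j) :=
  ⟨ho, fun j => (h.sm _).mono (hs j), fun k => by
    obtain ⟨c, hc, hb⟩ := h.bd k
    exact ⟨c, hc, fun j x hx => hb _ x (hs j hx)⟩⟩

/-- it is enough to be uniformly smooth locally -/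
theorem UB.of_local (h : UB U φ) {U' : ι' → Set X} {ψ : ι' → X → Y} (ho : ∀ j, IsOpen (U' j))
    (hl : ∀ j, ∀ x ∈ U' j, ∃ i, x ∈ U i ∧ ψ j =ᶠ[nhds x] φ i) : UB U' ψ :=
  ⟨ho, fun j x hx => by
    obtain ⟨i, hi, e⟩ := hl j x hx
    exact ((h.at hi).congr_of_eventuallyEq e).contDiffWithinAt, fun k => by
    obtain ⟨c, hc, hb⟩ := h.bd k
    refine ⟨c, hc, fun j x hx => ?_⟩
    obtain ⟨i, hi, e⟩ := hl j x hx
    rw [(e.iteratedFDeriv ℝ k).eq_of_nhds]
    exact hb i x hi⟩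

theorem UB.congr (h : UB U φ) (e : ∀ i, EqOn (φ' i) (φ i) (U i)) : UB U φ' :=
  h.of_local h.op fun i _ hx => ⟨i, hx, Filter.eventuallyEq_of_mem ((h.op i).mem_nhds hx) (e i)⟩

theorem UB.const (ho : ∀ i, IsOpen (U i)) {c : ι → Y} {M : ℝ} (hc : ∀ i, ‖c i‖ ≤ M) :
    UB U fun i _ => c i :=
  ⟨ho, fun _ => contDiffOn_const, fun k => ⟨max M 1, by positivity, fun i x _ => by
    rcases eq_or_ne k 0 with rfl | hk
    · rw [norm_iteratedFDeriv_zero]; exact (hc i).trans (le_max_left _ _)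
    · rw [iteratedFDeriv_const_of_ne hk]; simp⟩⟩

theorem UB.id (ho : ∀ i, IsOpen (U i)) {M : ℝ} (hb : ∀ i, ∀ x ∈ U i, ‖x‖ ≤ M) :
    UB U fun _ x => x :=
  ⟨ho, fun _ => contDiffOn_id, fun k => ⟨max M 1, by positivity, fun i x hx => by
    rcases k with _ | k
    · rw [norm_iteratedFDeriv_zero]; exact (hb i x hx).trans (le_max_left _ _)
    rw [← norm_iteratedFDeriv_fderiv, show _root_.fderiv ℝ (fun x : X => x) =
      fun _ => ContinuousLinearMap.id ℝ X from funext fun _ => fderiv_fun_id]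
    rcases eq_or_ne k 0 with rfl | hk
    · rw [norm_iteratedFDeriv_zero]; exact ContinuousLinearMap.norm_id_le.trans (le_max_right _ _)
    · rw [iteratedFDeriv_const_of_ne hk]; simp⟩⟩

/-- one smooth map on a set with compact closure inside the domain -/
theorem UB.of_compact {O K : Set X} {f : X → Y} (hO : IsOpen O) (hf : ContDiffOn ℝ ∞ f O)
    (hK : IsCompact K) (hKO : K ⊆ O) (ho : ∀ i, IsOpen (U i)) (hs : ∀ i, U i ⊆ K) :
    UB U fun _ => f :=
  ⟨ho, fun i => hf.mono ((hs i).trans hKO), fun k => by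
    obtain ⟨c, hc⟩ := hK.exists_bound_of_continuousOn
      (((hf.continuousOn_iteratedFDerivWithin (le_infty k) hO.uniqueDiffOn).congr
        (iteratedFDerivWithin_of_isOpen k hO).symm).mono hKO)
    exact ⟨max c 1, by positivity, fun i x hx => (hc x (hs i hx)).trans (le_max_left _ _)⟩⟩

/-- all bounds at once -/
theorem UB.bds (h : UB U φ) : ∃ c : ℕ → ℝ, (∀ k, 1 ≤ c k) ∧
    ∀ k i, ∀ x ∈ U i, ‖iteratedFDeriv ℝ k (φ i) x‖ ≤ c k := by
  choose c _ hb using h.bd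
  exact ⟨fun k => max (c k) 1, fun k => le_max_right _ _, fun k i x hx =>
    (hb k i x hx).trans (le_max_left _ _)⟩

/-- one bound for the orders `≤ n` -/
theorem UB.bdn (h : UB U φ) (n : ℕ) : ∃ c : ℝ, 1 ≤ c ∧
    ∀ k ≤ n, ∀ i, ∀ x ∈ U i, ‖iteratedFDeriv ℝ k (φ i) x‖ ≤ c := by
  obtain ⟨c, h1, hb⟩ := h.bds
  have h2 : ∀ k ≤ n, c k ≤ ∑ j ∈ Finset.range (n + 1), c j := fun k hk =>
    Finset.single_le_sum (fun j _ => zero_le_one.trans (h1 j)) (Finset.mem_range.2 (by omega))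
  exact ⟨_, (h1 0).trans (h2 0 (Nat.zero_le n)), fun k hk i x hx => (hb k i x hx).trans (h2 k hk)⟩

theorem UB.comp {V : ι → Set Y} {ψ : ι → Y → W} (h' : UB V ψ) (h : UB U φ)
    (hm : ∀ i, MapsTo (φ i) (U i) (V i)) : UB U fun i x => ψ i (φ i x) :=
  ⟨h.op, fun i => (h'.sm i).comp (h.sm i) (hm i), fun k => by
    obtain ⟨C, hC, hb'⟩ := h'.bdn k
    obtain ⟨D, hD, hb⟩ := h.bdn k
    refine ⟨k.factorial * C * D ^ k, by positivity, fun i x hx => ?_⟩
    rw [← iteratedFDerivWithin_of_isOpen k (h.op i) hx]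
    refine norm_iteratedFDerivWithin_comp_le (h'.sm i) (h.sm i) (le_infty k) (h'.op i).uniqueDiffOn
      (h.op i).uniqueDiffOn (hm i) hx (fun j hj => ?_) fun j h1 hj => ?_
    · rw [iteratedFDerivWithin_of_isOpen j (h'.op i) (hm i hx)]
      exact hb' j hj i _ (hm i hx)
    · rw [iteratedFDerivWithin_of_isOpen j (h.op i) hx]
      exact (hb j hj i x hx).trans (le_self_pow₀ hD (by omega))⟩

theorem UB.clm (h : UB U φ) (B : Y →L[ℝ] W) : UB U fun i x => B (φ i x) :=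
  ⟨h.op, fun i => B.contDiff.comp_contDiffOn (h.sm i), fun k => by
    obtain ⟨c, hc, hb⟩ := h.bd k
    refine ⟨(‖B‖ + 1) * c, by positivity, fun i x hx =>
      (B.norm_iteratedFDeriv_comp_left (h.at hx) (le_infty k)).trans ?_⟩
    exact mul_le_mul (by linarith) (hb i x hx) (norm_nonneg _) (by positivity)⟩

theorem UB.smooth [FiniteDimensional ℝ Y] (h : UB U φ) {Φ : Y → W} (hΦ : ContDiff ℝ ∞ Φ) :
    UB U fun i x => Φ (φ i x) := by
  obtain ⟨c, -, hb⟩ := h.bd 0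
  have := FiniteDimensional.proper_real Y
  refine UB.comp (V := fun _ => ball 0 (c + 1)) (ψ := fun _ => Φ) (UB.of_compact isOpen_univ hΦ.contDiffOn
    (isCompact_closedBall 0 (c + 1)) (subset_univ _) (fun _ => isOpen_ball) fun _ => ball_subset_closedBall) h
    fun i x hx => ?_
  have := hb i x hx
  rw [norm_iteratedFDeriv_zero] at this
  rw [mem_ball_zero_iff]
  linarith

theorem UB.add (h : UB U φ) (h' : UB U φ') : UB U fun i x => φ i x + φ' i x :=
  ⟨h.op, fun i => (h.sm i).add (h'.sm i), fun k => by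
    obtain ⟨c, hc, hb⟩ := h.bd k
    obtain ⟨c', hc', hb'⟩ := h'.bd k
    refine ⟨c + c', by positivity, fun i x hx => ?_⟩
    rw [fun_iteratedFDeriv_add_apply ((h.at hx).of_le (le_infty k)) ((h'.at hx).of_le (le_infty k))]
    exact (norm_add_le _ _).trans (add_le_add (hb i x hx) (hb' i x hx))⟩

theorem UB.sub (h : UB U φ) (h' : UB U φ') : UB U fun i x => φ i x - φ' i x :=
  (h.add (h'.clm (-ContinuousLinearMap.id ℝ Y))).congr fun i x _ => by simp [sub_eq_add_neg]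

theorem UB.prod {ψ : ι → X → W} (h : UB U φ) (h' : UB U ψ) : UB U fun i x => (φ i x, ψ i x) :=
  ((h.clm (ContinuousLinearMap.inl ℝ Y W)).add (h'.clm (ContinuousLinearMap.inr ℝ Y W))).congr
    fun i x _ => by simp

theorem UB.fderiv (h : UB U φ) : UB U fun i x => fderiv ℝ (φ i) x :=
  ⟨h.op, fun i => (h.sm i).fderiv_of_isOpen (h.op i) (by simp), fun k => by
    obtain ⟨c, hc, hb⟩ := h.bd (k + 1)
    exact ⟨c, hc, fun i x hx => norm_iteratedFDeriv_fderiv.trans_le (hb i x hx)⟩⟩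

theorem UB.bilin {W' : Type} [NormedAddCommGroup W'] [NormedSpace ℝ W'] {ψ : ι → X → W}
    (B : Y →L[ℝ] W →L[ℝ] W') (h : UB U φ) (h' : UB U ψ) : UB U fun i x => B (φ i x) (ψ i x) :=
  ⟨h.op, fun i => (B.contDiff.comp_contDiffOn (h.sm i)).clm_apply (h'.sm i), fun k => by
    obtain ⟨C, hC, hb⟩ := h.bdn k
    obtain ⟨D, hD, hb'⟩ := h'.bdn k
    have h0 : 0 ≤ ∑ j ∈ Finset.range (k + 1), (k.choose j : ℝ) * C * D :=
      Finset.sum_nonneg fun j _ => by positivity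
    refine ⟨‖B‖ * (∑ j ∈ Finset.range (k + 1), (k.choose j : ℝ) * C * D) + 1, by positivity,
      fun i x hx => ?_⟩
    rw [← iteratedFDerivWithin_of_isOpen k (h.op i) hx]
    refine (B.norm_iteratedFDerivWithin_le_of_bilinear (h.sm i) (h'.sm i) (h.op i).uniqueDiffOn hx
      (le_infty k)).trans ((mul_le_mul_of_nonneg_left (Finset.sum_le_sum fun j hj => ?_)
        (norm_nonneg B)).trans (le_add_of_nonneg_right zero_le_one))
    rw [iteratedFDerivWithin_of_isOpen _ (h.op i) hx, iteratedFDerivWithin_of_isOpen _ (h.op i) hx]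
    exact mul_le_mul (mul_le_mul_of_nonneg_left (hb j (by have := Finset.mem_range.1 hj; omega) i x hx)
      (by positivity)) (hb' _ (Nat.sub_le _ _) i x hx) (norm_nonneg _) (by positivity)⟩

theorem UB.clm_apply {B : ι → X → Y →L[ℝ] W} (h' : UB U B) (h : UB U φ) :
    UB U fun i x => B i x (φ i x) :=
  UB.bilin (ContinuousLinearMap.id ℝ (Y →L[ℝ] W)) h' h

theorem UB.clm_comp {W' : Type} [NormedAddCommGroup W'] [NormedSpace ℝ W']
    {B : ι → X → Y →L[ℝ] W} {B' : ι → X → W →L[ℝ] W'} (h' : UB U B') (h : UB U B) :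
    UB U fun i x => (B' i x).comp (B i x) :=
  UB.bilin (ContinuousLinearMap.compL ℝ Y W W') h' h

/-- value, Lipschitz and second order Taylor bounds on convex subsets -/
theorem UB.taylor [CompleteSpace Y] (h : UB U φ) : ∃ c : ℝ, 1 ≤ c ∧ ∀ i,
    (∀ x ∈ U i, ‖φ i x‖ ≤ c ∧ ‖_root_.fderiv ℝ (φ i) x‖ ≤ c) ∧
    ∀ B : Set X, Convex ℝ B → B ⊆ U i → ∀ x ∈ B, ∀ y ∈ B, ‖φ i y - φ i x‖ ≤ c * ‖y - x‖ ∧
      ‖_root_.fderiv ℝ (φ i) y - _root_.fderiv ℝ (φ i) x‖ ≤ c * ‖y - x‖ ∧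
      ‖φ i y - φ i x - _root_.fderiv ℝ (φ i) x (y - x)‖ ≤ c * ‖y - x‖ ^ 2 := by
  obtain ⟨c, hc, hb⟩ := h.bdn 2
  refine ⟨c, hc, fun i => ?_⟩
  have h1 : ∀ x ∈ U i, ‖_root_.fderiv ℝ (φ i) x‖ ≤ c := fun x hx =>
    (norm_iteratedFDeriv_one _).symm.trans_le (hb 1 (by omega) i x hx)
  have h2 : ∀ x ∈ U i, ‖_root_.fderiv ℝ (_root_.fderiv ℝ (φ i)) x‖ ≤ c := fun x hx =>
    ((norm_iteratedFDeriv_one _).symm.trans norm_iteratedFDeriv_fderiv).trans_le (hb 2 le_rfl i x hx)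
  have d1 : ∀ x ∈ U i, DifferentiableAt ℝ (φ i) x := fun x hx => (h.at hx).differentiableAt (by simp)
  refine ⟨fun x hx => ⟨norm_iteratedFDeriv_zero.symm.trans_le (hb 0 (by omega) i x hx), h1 x hx⟩,
    fun B hB hU x hx y hy => ?_⟩
  have l2 : ∀ z ∈ B, ‖_root_.fderiv ℝ (φ i) z - _root_.fderiv ℝ (φ i) x‖ ≤ c * ‖z - x‖ := fun z hz =>
    hB.norm_image_sub_le_of_norm_fderiv_le (fun u hu => (h.fderiv.at (hU hu)).differentiableAt (by simp))
      (fun u hu => h2 u (hU hu)) hx hz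
  have hs := hB.segment_subset hx hy
  refine ⟨hB.norm_image_sub_le_of_norm_fderiv_le (fun u hu => d1 u (hU hu)) (fun u hu => h1 u (hU hu)) hx hy,
    l2 y hy, ((convex_segment x y).norm_image_sub_le_of_norm_fderiv_le' (C := c * ‖y - x‖)
      (fun u hu => d1 u (hU (hs hu))) (fun u hu => (l2 u (hs hu)).trans ?_) (left_mem_segment ℝ x y)
      (right_mem_segment ℝ x y)).trans_eq (by ring)⟩
  exact mul_le_mul_of_nonneg_left (norm_sub_le_of_mem_segment hu) (by linarith)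

end Crest.Agent.N221.Ex
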