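import Crest.Agent.N221.Ex.UB
import Crest.Agent.N221.A1.PNe_Mg
import Crest.Agent.N221.A1.PRem_Mg

-- ▼ part N221/Ex/Slope
section

/-! Row 221, block EXIT: extension and continuity of slopes. -/

set_option autoImplicit false

open Set Metric
open scoped ContDiff

namespace Crest.Agent.N221.Ex

variable {E V : Type} [NormedAddCommGroup E] [NormedSpace ℝ E] [FiniteDimensional ℝ E]
  [NormedAddCommGroup V] [NormedSpace ℝ V] [FiniteDimensional ℝ V]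

namespace SlopeP

open Filter Topology

/-- `L` is a slope at `z` -/
def Rel (Φ : E × E → E → V) (δ C : ℝ) (z : E × E) (L : E →L[ℝ] V) : Prop :=
  ‖L‖ ≤ C ∧ ∀ q ∈ ball (0 : E) δ, ‖Φ z q - Φ z z.1 - L (q - z.1)‖ ≤ C * ‖q - z.1‖ ^ 2

variable {Φ : E × E → E → V} {δ C : ℝ} {z : E × E} {L L' : E →L[ℝ] V}

omit [NormedSpace ℝ E] [FiniteDimensional ℝ E] in
theorem fst_mem (hz : z ∈ ball (0 : E × E) δ) : z.1 ∈ ball (0 : E) δ :=
  mem_ball_zero_iff.2 ((norm_fst_le z).trans_lt (mem_ball_zero_iff.1 hz))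

omit [FiniteDimensional ℝ E] [FiniteDimensional ℝ V] in
theorem Rel.deriv (h : Rel Φ δ C z L) (hz : z ∈ ball (0 : E × E) δ) : HasFDerivAt (Φ z) L z.1 := by
  rw [hasFDerivAt_iff_isLittleO]
  refine (Asymptotics.IsBigO.of_bound C ?_).trans_isLittleO
    (Asymptotics.isLittleO_pow_sub_sub z.1 one_lt_two)
  filter_upwards [isOpen_ball.mem_nhds (fst_mem hz)] with q hq
  simpa using h.2 q hq

omit [FiniteDimensional ℝ E] [FiniteDimensional ℝ V] in
theorem closed (hc : ContinuousOn (fun p : (E × E) × E => Φ p.1 p.2) (ball 0 δ ×ˢ ball 0 δ))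
    (hz : z ∈ ball (0 : E × E) δ) {ι : Type} {F : Filter ι} [F.NeBot] {zs : ι → E × E}
    {Ls : ι → E →L[ℝ] V} (h1 : Tendsto zs F (𝓝 z)) (h2 : Tendsto Ls F (𝓝 L))
    (h : ∀ᶠ i in F, Rel Φ δ C (zs i) (Ls i)) : Rel Φ δ C z L := by
  refine ⟨le_of_tendsto h2.norm (h.mono fun _ h => h.1), fun q hq => ?_⟩
  have h3 : Tendsto (fun i => (zs i).1) F (𝓝 z.1) := (continuous_fst.tendsto z).comp h1
  have c : ∀ {q : E} {qs : ι → E}, q ∈ ball (0 : E) δ → Tendsto qs F (𝓝 q) →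
      Tendsto (fun i => Φ (zs i) (qs i)) F (𝓝 (Φ z q)) := fun {q qs} hq h =>
    (hc.continuousAt (x := (z, q)) ((isOpen_ball.prod isOpen_ball).mem_nhds ⟨hz, hq⟩)).tendsto.comp
      (h1.prodMk_nhds h)
  have h4 := tendsto_const_nhds (x := q).sub h3
  exact le_of_tendsto_of_tendsto (((c hq tendsto_const_nhds).sub (c (fst_mem hz) h3)).sub
    ((isBoundedBilinearMap_apply.continuous.tendsto (L, q - z.1)).comp (h2.prodMk_nhds h4))).norm
    ((h4.norm.pow 2).const_mul C) (h.mono fun _ h => h.2 q hq)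

theorem cont_of_exp (hc : ContinuousOn (fun p : (E × E) × E => Φ p.1 p.2) (ball 0 δ ×ˢ ball 0 δ))
    {L : E × E → E →L[ℝ] V} (h : ∀ z ∈ ball (0 : E × E) δ, Rel Φ δ C z (L z)) :
    ContinuousOn L (ball 0 δ) := fun z hz => by
  have := FiniteDimensional.proper_real (E →L[ℝ] V)
  have hm : ∀ᶠ z in 𝓝[ball 0 δ] z, Rel Φ δ C z (L z) := eventually_mem_nhdsWithin.mono h
  refine (isCompact_closedBall 0 C).tendsto_nhds_of_unique_mapClusterPt
    (hm.mono fun _ h => mem_closedBall_zero_iff.2 h.1) fun L' _ hL => ?_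
  obtain ⟨U, h1, h2⟩ := mapClusterPt_iff_ultrafilter.1 hL
  exact ((closed hc hz (zs := id) (h1.trans nhdsWithin_le_nhds) h2 (h1 hm)).deriv hz).unique
    ((h z hz).deriv hz)

end SlopeP

open SlopeP Filter Topology in
/-- from a dense set of base points to all base points; the slope is continuous -/
theorem slope_ext {Φ : E × E → E → V} {δ C : ℝ} (hδ : 0 < δ)
    (hc : ContinuousOn (fun p : (E × E) × E => Φ p.1 p.2) (ball 0 δ ×ˢ ball 0 δ))
    (h : ∀ z ∈ ball (0 : E × E) δ, ∀ ε > 0, ∃ z' ∈ ball (0 : E × E) δ, ‖z' - z‖ < ε ∧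
      ∃ L : E →L[ℝ] V, ‖L‖ ≤ C ∧
        ∀ q ∈ ball (0 : E) δ, ‖Φ z' q - Φ z' z'.1 - L (q - z'.1)‖ ≤ C * ‖q - z'.1‖ ^ 2) :
    ∃ L : E × E → E →L[ℝ] V, ContinuousOn L (ball 0 δ) ∧ ∀ z ∈ ball (0 : E × E) δ, ‖L z‖ ≤ C ∧
      ∀ q ∈ ball (0 : E) δ, ‖Φ z q - Φ z z.1 - L z (q - z.1)‖ ≤ C * ‖q - z.1‖ ^ 2 := by
  have _ := hδ
  have := FiniteDimensional.proper_real (E →L[ℝ] V)
  have key : ∀ z ∈ ball (0 : E × E) δ, ∃ L, Rel Φ δ C z L := fun z hz => by
    choose zs _ h1 Ls h2 using fun k : ℕ => h z hz _ (Nat.one_div_pos_of_nat (n := k))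
    obtain ⟨L, -, φ, hφ, hL⟩ := (isCompact_closedBall 0 C).tendsto_subseq (x := Ls)
      fun k => mem_closedBall_zero_iff.2 (h2 k).1
    have h3 : Tendsto zs atTop (𝓝 z) := tendsto_iff_norm_sub_tendsto_zero.2 (squeeze_zero
      (fun _ => norm_nonneg _) (fun k => (h1 k).le) tendsto_one_div_add_atTop_nhds_zero_nat)
    exact ⟨L, closed hc hz (h3.comp hφ.tendsto_atTop) hL (.of_forall fun k => h2 (φ k))⟩
  choose! L hL using key
  exact ⟨L, cont_of_exp hc hL, hL⟩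

variable {At : Atl E} {S : Side At}

/-- the slope of the graphs is continuous -/
theorem Side.Ok.cont_sl (hS : S.Ok) (hr : 0 < At.r) (f : At.F) :
    ContinuousOn (S.sl f) (ball 0 At.r) := by
  have _ := hr
  obtain ⟨c, -, hc⟩ := hS.ub.taylor
  refine SlopeP.cont_of_exp (C := c) (hS.cont f) fun z hz => ?_
  have h := hc ⟨(f, z), hz⟩
  exact ⟨(h.1 _ (SlopeP.fst_mem hz)).2, fun q hq =>
    (h.2 _ (convex_ball _ _) Subset.rfl _ (SlopeP.fst_mem hz) q hq).2.2⟩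

end Crest.Agent.N221.Ex
end

-- ▼ part N221/Ex/C1
section

/-! Row 221, block EXIT: a function with uniform first order expansions along two transverse
families of graphs is `C¹`. -/

set_option autoImplicit false
set_option linter.unusedSectionVars false

open Set Metric
open scoped ContDiff

namespace Crest.Agent.N221.Ex

variable {E V : Type} [NormedAddCommGroup E] [NormedSpace ℝ E] [FiniteDimensional ℝ E]
  [NormedAddCommGroup V] [NormedSpace ℝ V] [FiniteDimensional ℝ V]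
  {At : Atl E} {S U : Side At} {s : At.F → E × E → V}

namespace C1P

omit [FiniteDimensional ℝ E] [FiniteDimensional ℝ V] in
/-- the estimate at a corner -/
theorem key {Su Ss Ss' : E →L[ℝ] E} {Lu Ls Ls' : E →L[ℝ] V} {u dq dp P g : E} {a Δ : V}
    {c c0 C ε n : ℝ} (hc0 : 0 < c0) (hc : 0 ≤ c) (hC : 0 ≤ C) (hε : 16 * c * ε ≤ c0)
    (low : ∀ e, c0 * ‖e‖ ≤ ‖Su e - Ss e‖) (hP : Su P - Ss P = dp - Ss dq)
    (b1 : ‖Ss‖ ≤ c) (b2 : ‖Lu‖ ≤ C) (b3 : ‖Ls‖ ≤ C) (b4 : ‖Ss' - Ss‖ ≤ c0 / 4)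
    (n1 : ‖dq‖ ≤ n) (n2 : ‖dp‖ ≤ n) (e1 : ‖u‖ ≤ 2 * ε) (e2 : ‖u - dq‖ ≤ 2 * ε)
    (g1 : ‖g - Su u‖ ≤ c * ‖u‖ ^ 2) (g2 : ‖g - dp - Ss' (u - dq)‖ ≤ c * ‖u - dq‖ ^ 2)
    (l1 : ‖a - Lu u‖ ≤ C * ‖u‖ ^ 2) (l2 : ‖a - Δ - Ls' (u - dq)‖ ≤ C * ‖u - dq‖ ^ 2) :
    ‖Δ - (Lu P + Ls (dq - P))‖ ≤
      (2 * C / c0 * (‖Ss' - Ss‖ * (2 * (1 + c + c0) / c0 + 1) +
        2 * c * (2 * (1 + c + c0) / c0 + 1) ^ 2 * n) + ‖Ls' - Ls‖ * (2 * (1 + c + c0) / c0 + 1) +
        2 * C * (2 * (1 + c + c0) / c0 + 1) ^ 2 * n) * n := by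
  have n0 : 0 ≤ n := (norm_nonneg _).trans n1
  have u0 := norm_nonneg u
  have v0 := norm_nonneg (u - dq)
  -- the remainder
  have r : ‖(Ss' - Ss) (u - dq) + (g - dp - Ss' (u - dq)) - (g - Su u)‖ ≤
      ‖Ss' - Ss‖ * ‖u - dq‖ + c * ‖u - dq‖ ^ 2 + c * ‖u‖ ^ 2 :=
    norm_sub_le_of_le (norm_add_le_of_le ((Ss' - Ss).le_opNorm _) g2) g1
  have hw := low (u - P)
  rw [show Su (u - P) - Ss (u - P) =
      (Ss' - Ss) (u - dq) + (g - dp - Ss' (u - dq)) - (g - Su u) by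
    rw [map_sub, map_sub, sub_sub_sub_comm, hP, sub_apply, map_sub Ss]; abel] at hw
  replace hw := hw.trans r
  have hp := low P
  rw [hP] at hp
  replace hp := hp.trans (norm_sub_le_of_le n2 (Ss.le_of_opNorm_le_of_le b1 n1))
  have t1 : ‖u‖ ≤ ‖u - P‖ + ‖P‖ := norm_le_norm_sub_add u P
  have t2 : ‖u - dq‖ ≤ ‖u‖ + n := norm_sub_le_of_le le_rfl n1
  have k1 : ‖u‖ ≤ 2 * (1 + c + c0) / c0 * n := by
    have a1 : ‖Ss' - Ss‖ * ‖u - dq‖ ≤ c0 / 4 * (‖u‖ + n) := by gcongr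
    have a2 : c * ‖u - dq‖ ≤ c0 / 8 := by linarith [mul_le_mul_of_nonneg_left e2 hc]
    have a3 : c * ‖u‖ ≤ c0 / 8 := by linarith [mul_le_mul_of_nonneg_left e1 hc]
    have a4 : c * ‖u - dq‖ * ‖u - dq‖ ≤ c0 / 8 * (‖u‖ + n) := by gcongr
    have a5 := mul_le_mul_of_nonneg_right a3 u0
    have a6 := mul_le_mul_of_nonneg_left t1 hc0.le
    rw [div_mul_eq_mul_div, le_div_iff₀ hc0]
    linarith [mul_nonneg hc0.le n0]
  have p : 0 ≤ 2 * (1 + c + c0) / c0 := by positivity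
  generalize 2 * (1 + c + c0) / c0 = D at k1 p ⊢
  have k2 : ‖u - dq‖ ≤ (D + 1) * n := by linarith
  have k3 : ‖u‖ ≤ (D + 1) * n := by linarith
  have k4 : ‖u - P‖ ≤ (‖Ss' - Ss‖ * ((D + 1) * n) + c * ((D + 1) * n) ^ 2 +
      c * ((D + 1) * n) ^ 2) / c0 := by
    rw [le_div_iff₀' hc0]
    exact hw.trans (by gcongr)
  rw [show Δ - (Lu P + Ls (dq - P)) = Lu (u - P) - Ls (u - P) - (Ls' - Ls) (u - dq) + (a - Lu u) -
      (a - Δ - Ls' (u - dq)) by simp only [map_sub, sub_apply]; abel]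
  refine (norm_sub_le_of_le (norm_add_le_of_le (norm_sub_le_of_le (norm_sub_le_of_le
    (Lu.le_of_opNorm_le_of_le b2 k4) (Ls.le_of_opNorm_le_of_le b3 k4))
    ((Ls' - Ls).le_of_opNorm_le_of_le le_rfl k2))
    (l1.trans (by gcongr : _ ≤ C * ((D + 1) * n) ^ 2)))
    (l2.trans (by gcongr : _ ≤ C * ((D + 1) * n) ^ 2))).trans (le_of_eq ?_)
  ring

theorem inv_of_low {L : E →L[ℝ] E} {c : ℝ} (hc : 0 < c) (h : ∀ e, c * ‖e‖ ≤ ‖L e‖) :
    L.IsInvertible :=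
  ⟨(LinearEquiv.ofInjectiveEndo (L : E →ₗ[ℝ] E) ((injective_iff_map_eq_zero _).2 fun e he => by
    have := h e
    rw [show L e = 0 from he, norm_zero] at this
    exact norm_le_zero_iff.1 (nonpos_of_mul_nonpos_right this hc))).toContinuousLinearEquiv, rfl⟩

/-- Taylor expansion of the graphs -/
theorem graph (hS : S.Ok) : ∃ c : ℝ, 1 ≤ c ∧ ∀ f, ∀ z ∈ ball (0 : E × E) At.r, ‖S.sl f z‖ ≤ c ∧
    ∀ q ∈ ball (0 : E) At.r, ‖S.g f z q - z.2 - S.sl f z (q - z.1)‖ ≤ c * ‖q - z.1‖ ^ 2 := by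
  have := FiniteDimensional.complete ℝ E
  obtain ⟨c, hc, h⟩ := hS.ub.taylor
  refine ⟨c, hc, fun f z hz => ?_⟩
  have h1 : z.1 ∈ ball (0 : E) At.r :=
    mem_ball_zero_iff.2 ((norm_fst_le z).trans_lt (mem_ball_zero_iff.1 hz))
  refine ⟨((h ⟨(f, z), hz⟩).1 _ h1).2, fun q hq => ?_⟩
  have h2 := ((h ⟨(f, z), hz⟩).2 _ (convex_ball _ _) Subset.rfl _ h1 q hq).2.2
  rwa [hS.on f z hz] at h2

end C1P

open C1P ContinuousLinearMap Filter Topology in
theorem c1_of_leaf (hA : At.Ok) (hS : S.Ok) (hU : U.Ok) (hT : Trans S U) (h1 : Leaf S s)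
    (h2 : Leaf U s) : ∃ C : ℝ, 0 < C ∧ ∀ f, ∃ δ > 0, ContDiffOn ℝ 1 (s f) (ball 0 δ) ∧
      ‖fderiv ℝ (s f) 0‖ ≤ C := by
  have := FiniteDimensional.complete ℝ E
  obtain ⟨cs, hcs, gS⟩ := graph hS
  obtain ⟨cu, hcu, gU⟩ := graph hU
  obtain ⟨c0, hc0, low⟩ := hT.low
  obtain ⟨Cs, hCs, h1⟩ := h1
  obtain ⟨Cu, hCu, h2⟩ := h2
  refine ⟨(Cs + Cu) * (1 + 2 * ((1 + cs) / c0)), by positivity, fun f => ?_⟩
  obtain ⟨d1, hd1, Ls, cLs, h1⟩ := h1 f
  obtain ⟨d2, hd2, Lu, cLu, h2⟩ := h2 f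
  have hr := hA.r_pos
  obtain ⟨ε, hε, e1, e2, e3, e4⟩ : ∃ ε > 0, ε ≤ d1 ∧ ε ≤ d2 ∧ ε ≤ At.r ∧ 16 * (cs + cu) * ε ≤ c0 :=
    ⟨min (min d1 d2) (min At.r (c0 / (16 * (cs + cu)))), by positivity,
      (min_le_left _ _).trans (min_le_left _ _), (min_le_left _ _).trans (min_le_right _ _),
      (min_le_right _ _).trans (min_le_left _ _),
      (le_div_iff₀' (by positivity)).1 ((min_le_right _ _).trans (min_le_right _ _))⟩
  obtain ⟨δ, hδ, cor⟩ := hT.corner f ε hε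
  have s0 : ball (0 : E × E) (min δ ε) ⊆ ball 0 δ := ball_subset_ball (min_le_left _ _)
  have sε : ball (0 : E × E) (min δ ε) ⊆ ball 0 ε := ball_subset_ball (min_le_right _ _)
  have s1 := sε.trans (ball_subset_ball e1)
  have s2 := sε.trans (ball_subset_ball e2)
  have s3 := sε.trans (ball_subset_ball e3)
  have cS := (hS.cont_sl hr f).mono s3
  have cU := (hU.cont_sl hr f).mono s3
  have inv : ∀ z ∈ ball (0 : E × E) (min δ ε), (U.sl f z - S.sl f z).IsInvertible :=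
    fun z hz => inv_of_low hc0 (low f z (s3 hz))
  let P : E × E → E × E →L[ℝ] E := fun z =>
    (U.sl f z - S.sl f z).inverse ∘L (snd ℝ E E - S.sl f z ∘L fst ℝ E E)
  let D : E × E → E × E →L[ℝ] V := fun z => Lu z ∘L P z + Ls z ∘L (fst ℝ E E - P z)
  have hP : ∀ z ∈ ball (0 : E × E) (min δ ε), ∀ h,
      U.sl f z (P z h) - S.sl f z (P z h) = h.2 - S.sl f z h.1 :=
    fun z hz h => (inv z hz).self_apply_inverse _
  have cP : ContinuousOn P (ball 0 (min δ ε)) :=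
    ContinuousOn.clm_comp (fun z hz => ContinuousAt.comp_continuousWithinAt
      (f := fun z => U.sl f z - S.sl f z) ((inv z hz).contDiffAt_map_inverse (n := 0)).continuousAt
      (cU.sub cS z hz)) (continuousOn_const.sub (cS.clm_comp continuousOn_const))
  have cD : ContinuousOn D (ball 0 (min δ ε)) :=
    ((cLu.mono s2).clm_comp cP).add ((cLs.mono s1).clm_comp (continuousOn_const.sub cP))
  have der : ∀ z ∈ ball (0 : E × E) (min δ ε), HasFDerivAt (s f) (D z) z := fun z hz => by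
    have nb := isOpen_ball.mem_nhds hz
    have t1 : Tendsto (fun z' => ‖S.sl f z' - S.sl f z‖) (𝓝 z) (𝓝 0) :=
      tendsto_iff_norm_sub_tendsto_zero.1 (cS.continuousAt nb)
    have t2 : Tendsto (fun z' => ‖Ls z' - Ls z‖) (𝓝 z) (𝓝 0) :=
      tendsto_iff_norm_sub_tendsto_zero.1 ((cLs.mono s1).continuousAt nb)
    have t3 : Tendsto (fun z' => ‖z' - z‖) (𝓝 z) (𝓝 0) := tendsto_norm_sub_self z
    have t4 := ((((t1.mul_const (2 * (1 + (cs + cu) + c0) / c0 + 1)).add (t3.const_mul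
      (2 * (cs + cu) * (2 * (1 + (cs + cu) + c0) / c0 + 1) ^ 2))).const_mul
      (2 * (Cs + Cu) / c0)).add (t2.mul_const (2 * (1 + (cs + cu) + c0) / c0 + 1))).add
      (t3.const_mul (2 * (Cs + Cu) * (2 * (1 + (cs + cu) + c0) / c0 + 1) ^ 2))
    simp only [zero_mul, mul_zero, add_zero] at t4
    refine hasFDerivAt_iff_isLittleO.2 (Asymptotics.isLittleO_iff.2 fun θ hθ => ?_)
    filter_upwards [nb, t1.eventually_le_const (by positivity : 0 < c0 / 4),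
      t4.eventually_le_const hθ] with z' hz' a1 a2
    obtain ⟨q, hq, e⟩ := cor z (s0 hz) z' (s0 hz')
    have nq : ∀ w ∈ ball (0 : E × E) (min δ ε), ‖q - w.1‖ ≤ 2 * ε := fun w hw => by
      linarith [norm_sub_le q w.1, mem_ball_zero_iff.1 hq, norm_fst_le w,
        mem_ball_zero_iff.1 (sε hw)]
    have e5 : q - z.1 - (z' - z).1 = q - z'.1 := sub_sub_sub_cancel_right _ _ _
    refine (key (Su := U.sl f z) (Ss := S.sl f z) (Ss' := S.sl f z') (Lu := Lu z) (Ls := Ls z)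
      (Ls' := Ls z') (u := q - z.1) (g := U.g f z q - z.2) (a := s f (q, U.g f z q) - s f z)
      hc0 (by positivity) (by positivity : 0 ≤ Cs + Cu) e4 (low f z (s3 hz))
      (hP z hz (z' - z)) ((gS f z (s3 hz)).1.trans (by linarith))
      ((h2 z (s2 hz)).1.trans (by linarith)) ((h1 z (s1 hz)).1.trans (by linarith)) a1
      (norm_fst_le _) (norm_snd_le _) (nq z hz) (e5 ▸ nq z' hz') ?_ ?_ ?_ ?_).trans
      (mul_le_mul_of_nonneg_right a2 (norm_nonneg _))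
    · exact ((gU f z (s3 hz)).2 q (ball_subset_ball e3 hq)).trans (by gcongr; linarith)
    · rw [e5, Prod.snd_sub, sub_sub_sub_cancel_right, e]
      exact ((gS f z' (s3 hz')).2 q (ball_subset_ball e3 hq)).trans (by gcongr; linarith)
    · exact ((h2 z (s2 hz)).2 q (ball_subset_ball e2 hq)).trans (by gcongr; linarith)
    · rw [e5, sub_sub_sub_cancel_right, e]
      exact ((h1 z' (s1 hz')).2 q (ball_subset_ball e1 hq)).trans (by gcongr; linarith)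
  have h0 : (0 : E × E) ∈ ball 0 (min δ ε) := mem_ball_self (lt_min hδ hε)
  refine ⟨min δ ε, lt_min hδ hε, ?_, ?_⟩
  · rw [← zero_add (1 : WithTop ℕ∞), contDiffOn_succ_iff_fderiv_of_isOpen isOpen_ball]
    exact ⟨fun z hz => (der z hz).differentiableAt.differentiableWithinAt, by simp,
      contDiffOn_zero.2 (cD.congr fun z hz => (der z hz).fderiv)⟩
  · rw [(der 0 h0).fderiv]
    refine opNorm_le_bound _ (by positivity) fun h => ?_
    have k1 := low f 0 (s3 h0) (P 0 h)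
    rw [hP 0 h0] at k1
    have k2 : ‖P 0 h‖ ≤ (1 + cs) / c0 * ‖h‖ := by
      rw [div_mul_eq_mul_div, le_div_iff₀' hc0]
      linarith [k1.trans (norm_sub_le_of_le (norm_snd_le h)
        ((S.sl f 0).le_of_opNorm_le_of_le (gS f 0 (s3 h0)).1 (norm_fst_le h)))]
    refine (norm_add_le_of_le ((Lu 0).le_of_opNorm_le_of_le (h2 0 (s2 h0)).1 k2)
      ((Ls 0).le_of_opNorm_le_of_le (h1 0 (s1 h0)).1
        (norm_sub_le_of_le (norm_fst_le h) k2))).trans ?_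
    have p : 0 ≤ (1 + cs) / c0 := by positivity
    generalize (1 + cs) / c0 = k at p
    have := norm_nonneg h
    nlinarith [mul_nonneg hCu.le this, mul_nonneg (mul_nonneg hCu.le p) this,
      mul_nonneg (mul_nonneg hCs.le p) this]

end Crest.Agent.N221.Ex
end

-- ▼ part N221/Ex/LemU
section

/-! Row 221, block EXIT: Lemma U.  A bounded invariant section over a chain of contractions that is
uniformly smooth at infinitely many times has a uniform Taylor expansion at time `0`. -/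

set_option autoImplicit false

open Set Metric
open scoped ContDiff

namespace Crest.Agent.N221.Ex

theorem lemU (E V : Type) [NormedAddCommGroup E] [NormedSpace ℝ E] [FiniteDimensional ℝ E]
    [NormedAddCommGroup V] [NormedSpace ℝ V] [FiniteDimensional ℝ V] {R κ : ℝ} (hR : 0 < R)
    (κ0 : 0 < κ) (κ1 : κ < 1) (c : ℕ → ℝ) : ∃ C : ℝ, 0 < C ∧
    ∀ (ψ : ℕ → E → E) (A : ℕ → E → V →L[ℝ] V) (F : ℕ → E → V) (M : ℝ) (d : ℕ → ℝ),
      (∀ j, ContDiffOn ℝ ∞ (ψ j) (ball 0 R)) → (∀ j, ContDiffOn ℝ ∞ (A j) (ball 0 R)) →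
      (∀ j k, ∀ x ∈ ball (0 : E) R, ‖iteratedFDeriv ℝ k (ψ j) x‖ ≤ c k) →
      (∀ j k, ∀ x ∈ ball (0 : E) R, ‖iteratedFDeriv ℝ k (A j) x‖ ≤ c k) →
      (∀ j, ∀ x ∈ ball (0 : E) R, ‖ψ j x‖ ≤ κ * ‖x‖) →
      (∀ j, ∀ x ∈ ball (0 : E) R, F j x = A j x (F (j + 1) (ψ j x))) →
      (∀ j, ∀ x ∈ ball (0 : E) R, ‖F j x‖ ≤ M) →
      (∀ J, ∃ j, J ≤ j ∧ ContDiffOn ℝ ∞ (F j) (ball 0 R) ∧
        ∀ k, ∀ x ∈ ball (0 : E) R, ‖iteratedFDeriv ℝ k (F j) x‖ ≤ d k) →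
      ∃ L : E →L[ℝ] V, ‖L‖ ≤ C * M ∧
        ∀ x ∈ ball (0 : E) R, ‖F 0 x - F 0 0 - L x‖ ≤ C * M * ‖x‖ ^ 2 := by
  have := FiniteDimensional.complete ℝ V
  have hT := PS.tayS PS.remS
  have hN := PS.neS PS.remS
  obtain ⟨n, hn⟩ := exists_pow_lt_of_lt_one (x := 1 / 4 / (|c 0| + 1)) (by positivity) κ1
  have hb : |c 0| * κ ^ (n + 1 + 1) ≤ 1 / 4 := by
    have a1 : κ ^ (n + 1 + 1) ≤ κ ^ n := pow_le_pow_of_le_one κ0.le κ1.le (by omega)
    rw [lt_div_iff₀ (by positivity)] at hn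
    nlinarith [abs_nonneg (c 0), pow_pos κ0 n]
  obtain ⟨K, hK, hd⟩ := PS.Stp.der (E := E) (V := V) hT hN hR c (n + 1)
  obtain ⟨t1, t2, t3, -, t5⟩ := hT E V (n + 1)
  obtain ⟨CN, hCN, hN⟩ := hN E V (n + 1) 2 R hR
  obtain ⟨r, r0, r1, r2⟩ : ∃ r : ℝ, 0 < r ∧ r < R ∧ K * (6 * R) ^ (n + 1) * r ≤ 1 / 4 :=
    ⟨min (R / 2) (1 / 4 / (K * (6 * R) ^ (n + 1))), by positivity,
      (min_le_left _ _).trans_lt (by linarith), (le_div_iff₀' (by positivity)).1 (min_le_right _ _)⟩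
  obtain ⟨K', hK'⟩ : ∃ K', K' = K * (6 * R / r) ^ (n + 1) := ⟨_, rfl⟩
  have K0 : 0 < K' := by rw [hK']; positivity
  refine ⟨2 * K' * R ^ n + CN * ((6 * R / r) ^ (n + 1) * (1 + 2 * K' * r ^ (n + 1 + 1))), by positivity,
    fun ψ A F M d sψ sA dψ dA con rel hM good => ?_⟩
  have M0 : 0 ≤ M := (norm_nonneg _).trans (hM 0 0 (mem_ball_self hR))
  have maps : ∀ j, MapsTo (ψ j) (ball 0 R) (ball 0 R) := fun j x hx => mem_ball_zero_iff.2
    (((con j x hx).trans (mul_le_of_le_one_left (norm_nonneg _) κ1.le)).trans_lt (mem_ball_zero_iff.1 hx))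
  have nA : ∀ j, ∀ x ∈ ball (0 : E) R, ‖A j x‖ ≤ |c 0| := fun j x hx => by
    simpa only [norm_iteratedFDeriv_zero] using (dA j 0 x hx).trans (le_abs_self _)
  have size : ∀ j ρ, 0 ≤ ρ → (∀ x ∈ ball (0 : E) R, ‖F j x - PS.tay (n + 1) (F j) x‖ ≤ ρ * ‖x‖ ^ (n + 1 + 1)) →
      ∀ x : E, ‖x‖ ≤ R → ‖PS.tay (n + 1) (F j) x‖ ≤ (6 * R / r) ^ (n + 1) * (M + ρ * r ^ (n + 1 + 1)) :=
    fun j ρ hρ h => t2 _ r R _ r0 r1.le fun x hx => by
      have hx' := mem_ball_zero_iff.2 (hx.trans_lt r1)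
      refine (norm_le_norm_add_norm_sub _ _).trans (add_le_add (hM j x hx') ((h x hx').trans ?_))
      gcongr
  have main : ∀ T, ContDiffOn ℝ ∞ (F T) (ball 0 R) →
      (∀ k, ∀ x ∈ ball (0 : E) R, ‖iteratedFDeriv ℝ k (F T) x‖ ≤ d k) → ∀ i j, j + i = T →
      ContDiffOn ℝ ∞ (F j) (ball 0 R) ∧ ∀ x ∈ ball (0 : E) R, ‖F j x - PS.tay (n + 1) (F j) x‖ ≤
        (2 * K' * M + |d (n + 1 + 1)| * (1 / 2) ^ i) * ‖x‖ ^ (n + 1 + 1) := by
    intro T sT dT i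
    induction i with
    | zero =>
      rintro j rfl
      refine ⟨sT, fun x hx => (t1 _ R _ sT (dT _) x hx).trans
        (mul_le_mul_of_nonneg_right ?_ (by positivity))⟩
      have : 0 ≤ 2 * K' * M := by positivity
      linarith [le_abs_self (d (n + 1 + 1))]
    | succ i ih =>
      intro j hj
      obtain ⟨s1, h1⟩ := ih (j + 1) (by omega)
      obtain ⟨ρ, hρ⟩ : ∃ ρ, ρ = 2 * K' * M + |d (n + 1 + 1)| * (1 / 2) ^ i := ⟨_, rfl⟩
      rw [← hρ] at h1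
      have ρ0 : 0 ≤ ρ := by rw [hρ]; positivity
      have s0 : ContDiffOn ℝ ∞ (F j) (ball 0 R) := ((sA j).clm_apply (s1.comp (sψ j) (maps j))).congr (rel j)
      have hg : ContDiffOn ℝ ∞ (fun x => A j x (PS.tay (n + 1) (F (j + 1)) (ψ j x))) (ball 0 R) :=
        (sA j).clm_apply ((t5 _).comp_contDiffOn (sψ j))
      have near : ∀ x ∈ ball (0 : E) R, ‖F j x - A j x (PS.tay (n + 1) (F (j + 1)) (ψ j x))‖ ≤
          1 / 4 * ρ * ‖x‖ ^ (n + 1 + 1) := fun x hx => by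
        have a2 := con j x hx
        rw [rel j x hx, ← map_sub]
        calc _ ≤ |c 0| * (ρ * ‖ψ j x‖ ^ (n + 1 + 1)) :=
              (A j x).le_of_opNorm_le_of_le (nA j x hx) (h1 _ (maps j hx))
          _ ≤ |c 0| * (ρ * (κ * ‖x‖) ^ (n + 1 + 1)) := by gcongr
          _ = |c 0| * κ ^ (n + 1 + 1) * ρ * ‖x‖ ^ (n + 1 + 1) := by ring
          _ ≤ _ := by gcongr
      have hr := t1 _ R _ hg (hd _ _ (F (j + 1)) _ (sψ j) (sA j) (maps j) (dψ j) (dA j) (size _ ρ ρ0 h1))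
      refine ⟨s0, fun x hx => ?_⟩
      rw [t3 _ _ R _ hR s0 hg near]
      refine (norm_sub_le_norm_sub_add_norm_sub _ _ _).trans ((add_le_add (near x hx) (hr x hx)).trans ?_)
      rw [← add_mul]
      refine mul_le_mul_of_nonneg_right ?_ (by positivity)
      have e : K * ((6 * R / r) ^ (n + 1) * (M + ρ * r ^ (n + 1 + 1))) =
          K' * M + K * (6 * R) ^ (n + 1) * r * ρ := by
        rw [hK', div_pow]; field_simp; ring
      rw [e, pow_succ (1 / 2 : ℝ)]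
      linarith [mul_le_mul_of_nonneg_right r2 ρ0]
  have h0 : ∀ x ∈ ball (0 : E) R, ‖F 0 x - PS.tay (n + 1) (F 0) x‖ ≤ 2 * K' * M * ‖x‖ ^ (n + 1 + 1) := by
    intro x hx
    have lim := (((tendsto_pow_atTop_nhds_zero_of_lt_one (r := (1 / 2 : ℝ)) (by norm_num)
      (by norm_num)).const_mul |d (n + 1 + 1)|).const_add (2 * K' * M)).mul_const (‖x‖ ^ (n + 1 + 1))
    rw [mul_zero, add_zero] at lim
    refine ge_of_tendsto' lim fun J => ?_
    obtain ⟨T, hJ, sT, dT⟩ := good J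
    refine ((main T sT dT T 0 (zero_add _)).2 x hx).trans ?_
    have := pow_le_pow_of_le_one (a := (1 / 2 : ℝ)) (by norm_num) (by norm_num) hJ
    gcongr
  have hP := hN (F 0) _ (size 0 _ (by positivity) h0)
  have e0 : PS.tay (n + 1) (F 0) 0 = F 0 0 := by
    have := h0 0 (mem_ball_self hR)
    simp only [norm_zero, ne_eq, Nat.add_eq_zero_iff, one_ne_zero, and_false, not_false_eq_true, zero_pow,
      mul_zero, norm_le_zero_iff, sub_eq_zero] at this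
    exact this.symm
  have c1 : 0 ≤ 2 * K' * R ^ n * M := by positivity
  refine ⟨fderiv ℝ (PS.tay (n + 1) (F 0)) 0, ?_, fun x hx => ?_⟩
  · have := hP 1 (by norm_num) 0 (by simpa using hR.le)
    rw [norm_iteratedFDeriv_one] at this
    linarith
  · have a1 := (hT E V 1).1 _ R _ (t5 (F 0)).contDiffOn
      (fun y hy => hP 2 le_rfl y (mem_ball_zero_iff.1 hy).le) x hx
    have e1 : PS.tay 1 (PS.tay (n + 1) (F 0)) x = F 0 0 + fderiv ℝ (PS.tay (n + 1) (F 0)) 0 x := by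
      rw [PS.tay, Finset.sum_range_succ, Finset.sum_range_one]
      simp [e0]
    have a2 : ‖x‖ ^ (n + 1 + 1) ≤ R ^ n * ‖x‖ ^ 2 := by
      rw [add_assoc, pow_add]
      gcongr
      exact (mem_ball_zero_iff.1 hx).le
    rw [sub_sub, ← e1]
    refine (norm_sub_le_norm_sub_add_norm_sub _ _ _).trans ((add_le_add ((h0 x hx).trans
      (mul_le_mul_of_nonneg_left a2 (by positivity))) a1).trans_eq (by ring))

end Crest.Agent.N221.Ex
end

-- ▼ part N221/Ex/Leaf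
section

/-! Row 221, block EXIT: uniform first order expansion along all graphs. -/

set_option autoImplicit false

open Set Metric
open scoped ContDiff

namespace Crest.Agent.N221.Ex

variable {E V : Type} [NormedAddCommGroup E] [NormedSpace ℝ E] [FiniteDimensional ℝ E]
  [NormedAddCommGroup V] [NormedSpace ℝ V] [FiniteDimensional ℝ V]

variable {At : Atl E} {S : Side At} {A : At.F → At.F → E × E → V →L[ℝ] V} {s : At.F → E × E → V}

/-- expansion at the centre of a chart whose chain returns to `Gd` -/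
theorem leaf_ctr (hA : At.Ok) (hS : S.Ok) (hs : Sec At A s) : ∃ C : ℝ, 0 < C ∧ ∀ f,
    (∀ J, ∃ j, J ≤ j ∧ S.nx^[j] f ∈ At.Gd) → ∃ L : E →L[ℝ] V, ‖L‖ ≤ C ∧
      ∀ q ∈ ball (0 : E) S.R, ‖s f (q, S.g f 0 q) - s f 0 - L q‖ ≤ C * ‖q‖ ^ 2 := by
  have r0 : (0 : E × E) ∈ ball (0 : E × E) At.r := mem_ball_self hA.r_pos
  have g0 : ∀ f, ((0 : E), S.g f 0 0) = 0 := fun f => Prod.ext rfl (hS.on f 0 r0)
  have ug : UB (fun _ : At.F => ball (0 : E) S.R) fun f q => (q, S.g f 0 q) :=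
    (UB.id (fun _ => isOpen_ball) (M := S.R) fun _ x hx => (mem_ball_zero_iff.1 hx).le).prod
      (hS.ub.mono (fun f => ⟨(f, 0), r0⟩) (fun _ => isOpen_ball) fun _ => ball_subset_ball hS.R_le)
  have uψ : UB (fun _ : At.F => ball (0 : E) S.R)
      fun f q => (At.T f (S.nx f) (q, S.g f 0 q)).1 :=
    ((hA.ub.mono (fun f => ⟨(f, S.nx f), hS.cl f⟩) (fun _ => hA.ub.op _) fun _ => subset_rfl).comp
      ug fun f q hq => (hS.con f q hq).1).clm (ContinuousLinearMap.fst ℝ E E)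
  have uA : UB (fun _ : At.F => ball (0 : E) S.R) fun f q => A f (S.nx f) (q, S.g f 0 q) :=
    (hs.ub.mono (fun f => ⟨(f, S.nx f), hS.cl f⟩) (fun _ => hA.ub.op _) fun _ => subset_rfl).comp
      ug fun f q hq => (hS.con f q hq).1
  have uG : UB (fun _ : At.Gd => ball (0 : E) S.R) fun f q => s f (q, S.g f 0 q) :=
    hs.gd.comp (ug.mono Subtype.val (fun _ => isOpen_ball) fun _ => subset_rfl)
      fun f q hq => (hS.con f q hq).2.1
  have hT : ∀ f, ∀ q ∈ ball (0 : E) S.R, At.T f (S.nx f) (q, S.g f 0 q) =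
      ((At.T f (S.nx f) (q, S.g f 0 q)).1, S.g (S.nx f) 0 (At.T f (S.nx f) (q, S.g f 0 q)).1) :=
    fun f q hq => Prod.ext rfl (by
      have := hS.nat f _ (hS.cl f) 0 (g0 f ▸ (hS.con f 0 (mem_ball_self hS.R_pos)).1) q
        (hS.con f q hq).1
      rwa [hS.zero] at this)
  obtain ⟨c1, -, h1⟩ := uψ.bds
  obtain ⟨c2, -, h2⟩ := uA.bds
  obtain ⟨d, -, h3⟩ := uG.bds
  obtain ⟨M, M0, hM⟩ := hs.bdd
  obtain ⟨C, C0, hC⟩ := lemU E V hS.R_pos hS.κ_pos hS.κ_lt fun k => max (c1 k) (c2 k)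
  refine ⟨C * M, mul_pos C0 M0, fun f hf => ?_⟩
  have := hC (fun j q => (At.T (S.nx^[j] f) (S.nx (S.nx^[j] f)) (q, S.g (S.nx^[j] f) 0 q)).1)
    (fun j q => A (S.nx^[j] f) (S.nx (S.nx^[j] f)) (q, S.g (S.nx^[j] f) 0 q))
    (fun j q => s (S.nx^[j] f) (q, S.g (S.nx^[j] f) 0 q)) M d (fun j => uψ.sm _) (fun j => uA.sm _)
    (fun j k x hx => (h1 k _ x hx).trans (le_max_left _ _))
    (fun j k x hx => (h2 k _ x hx).trans (le_max_right _ _)) (fun j x hx => (hS.con _ x hx).2.2)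
    (fun j x hx => by
      rw [Function.iterate_succ_apply', ← hT _ x hx]
      exact hs.rel _ _ (hS.cl _) _ (hS.con _ x hx).1)
    (fun j x hx => hM _ _ (hA.sub _ _ (hS.con _ x hx).1)) fun J => by
      obtain ⟨j, hj, hG⟩ := hf J
      exact ⟨j, hj, uG.sm ⟨_, hG⟩, fun k x hx => h3 k ⟨_, hG⟩ x hx⟩
  simpa only [Function.iterate_zero, id, g0] using this

omit [FiniteDimensional ℝ E] in
/-- the model of the section along a graph through a point with a good chart -/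
theorem Lf.model (hA : At.Ok) (hS : S.Ok) (hs : Sec At A s) (M C : ℝ) : ∃ c : ℝ, 1 ≤ c ∧
    ∀ f f' (δ : ℝ) (z : E × E) (v : V) (L : E →L[ℝ] V), At.cl f f' → z ∈ ball (0 : E × E) At.r →
      δ ≤ At.r → MapsTo (fun q => (q, S.g f z q)) (ball 0 δ) (At.dom f f') → ‖v‖ ≤ M → ‖L‖ ≤ C →
      ∀ x ∈ ball (0 : E) δ, ∃ L' : E →L[ℝ] V, ‖L'‖ ≤ c ∧ ∀ q ∈ ball (0 : E) δ,
        ‖A f f' (q, S.g f z q) (v + L (At.T f f' (q, S.g f z q)).1) -
          A f f' (x, S.g f z x) (v + L (At.T f f' (x, S.g f z x)).1) - L' (q - x)‖ ≤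
            c * ‖q - x‖ ^ 2 := by
  let I := {t : (At.P × At.Q × ℝ) × V × (E →L[ℝ] V) // t.1.2.1.1.1 = t.1.1.1.1 ∧ t.1.2.2 ≤ At.r ∧
    MapsTo (fun q => (q, S.g t.1.2.1.1.1 t.1.2.1.1.2 q)) (ball 0 t.1.2.2)
      (At.dom t.1.1.1.1 t.1.1.1.2) ∧ ‖t.2.1‖ ≤ M ∧ ‖t.2.2‖ ≤ C}
  have ho : ∀ i : I, IsOpen (ball (0 : E) i.1.1.2.2) := fun _ => isOpen_ball
  have uw := (UB.id ho (M := At.r) fun i x hx => (mem_ball_zero_iff.1 hx).le.trans i.2.2.1).prod
    (hS.ub.mono (fun i : I => i.1.1.2.1) ho fun i => ball_subset_ball i.2.2.1)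
  have uT := (hA.ub.mono (fun i : I => i.1.1.1) (fun _ => hA.ub.op _) fun _ => subset_rfl).comp uw
    fun i => i.2.2.2.1
  have uA := (hs.ub.mono (fun i : I => i.1.1.1) (fun _ => hA.ub.op _) fun _ => subset_rfl).comp uw
    fun i => i.2.2.2.1
  have uH := uA.clm_apply ((UB.const ho fun i : I => i.2.2.2.2.1).add
    ((UB.const ho fun i : I => i.2.2.2.2.2).clm_apply (uT.clm (ContinuousLinearMap.fst ℝ E E))))
  obtain ⟨c, c1, hc⟩ := uH.taylor
  refine ⟨c, c1, fun f f' δ z v L h1 h2 h3 h4 h5 h6 x hx => ?_⟩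
  obtain ⟨a1, a2⟩ := hc ⟨((⟨(f, f'), h1⟩, ⟨(f, z), h2⟩, δ), v, L), rfl, h3, h4, h5, h6⟩
  exact ⟨_, (a1 x hx).2, fun q hq => (a2 _ (convex_ball _ _) subset_rfl x hx q hq).2.2⟩

theorem leaf (hA : At.Ok) (hS : S.Ok) (hs : Sec At A s) : Leaf S s := by
  obtain ⟨c1, c11, h1⟩ := hS.ub.taylor
  obtain ⟨c2, c21, h2⟩ := hA.ub.taylor
  obtain ⟨c3, c31, h3⟩ := hs.ub.taylor
  obtain ⟨C0, C00, h0⟩ := leaf_ctr hA hS hs
  obtain ⟨M, -, hM⟩ := hs.bdd
  obtain ⟨c4, c41, h4⟩ := Lf.model hA hS hs M C0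
  have K0 : 0 ≤ c3 * (C0 * (c2 * c1) ^ 2) := by positivity
  refine ⟨c4 + c3 * (C0 * (c2 * c1) ^ 2), by linarith, fun f => ?_⟩
  obtain ⟨d0, d00, hd⟩ := hS.dense f
  have hr : ball (0 : E × E) d0 ⊆ ball 0 At.r := by
    obtain ⟨-, -, f', -, -, h, -⟩ := hd 0 (mem_ball_self d00) 1 one_pos
    exact h.trans (hA.sub _ _)
  obtain ⟨δ, δ0, δ1, δ2, δ3⟩ : ∃ δ > 0, δ ≤ At.r ∧ (1 + 2 * c1) * δ ≤ d0 ∧
      c2 * c1 * (2 * δ) ≤ S.R := by
    have := hA.r_pos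
    have := hS.R_pos
    refine ⟨min At.r (min (d0 / (1 + 2 * c1)) (S.R / (c2 * c1 * 2))), by positivity,
      min_le_left _ _, ?_, ?_⟩
    · exact (le_div_iff₀' (by positivity)).1 ((min_le_right _ _).trans (min_le_left _ _))
    · rw [← mul_assoc]
      exact (le_div_iff₀' (by positivity)).1 ((min_le_right _ _).trans (min_le_right _ _))
  have δd : δ ≤ d0 := by nlinarith
  have b1 : ∀ z ∈ ball (0 : E × E) δ, z.1 ∈ ball (0 : E) δ := fun z hz =>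
    mem_ball_zero_iff.2 ((norm_fst_le z).trans_lt (mem_ball_zero_iff.1 hz))
  have b2 : ∀ z ∈ ball (0 : E × E) δ, ∀ q ∈ ball (0 : E) δ, ‖q - z.1‖ < 2 * δ := fun z hz q hq => by
    have := norm_sub_le q z.1
    linarith [mem_ball_zero_iff.1 (b1 z hz), mem_ball_zero_iff.1 hq]
  have b0 : ∀ z ∈ ball (0 : E × E) δ, (z.1, S.g f z z.1) = z := fun z hz =>
    Prod.ext rfl (hS.on f z (ball_subset_ball δ1 hz))
  have b3 : ∀ z ∈ ball (0 : E × E) δ, ∀ q ∈ ball (0 : E) δ,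
      ‖(q, S.g f z q) - z‖ ≤ c1 * ‖q - z.1‖ := fun z hz q hq => by
    have := ((h1 ⟨(f, z), ball_subset_ball δ1 hz⟩).2 _ (convex_ball _ _) subset_rfl z.1
      (ball_subset_ball δ1 (b1 z hz)) q (ball_subset_ball δ1 hq)).1
    rw [hS.on f z (ball_subset_ball δ1 hz)] at this
    exact norm_prod_le_iff.2 ⟨le_mul_of_one_le_left (norm_nonneg _) c11, this⟩
  have b4 : ∀ z ∈ ball (0 : E × E) δ, ∀ q ∈ ball (0 : E) δ,
      (q, S.g f z q) ∈ ball (0 : E × E) d0 := fun z hz q hq => by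
    have a1 := norm_le_norm_add_norm_sub' (q, S.g f z q) z
    have a2 := mul_le_mul_of_nonneg_left (b2 z hz q hq).le (zero_le_one.trans c11)
    rw [mem_ball_zero_iff]
    linarith [b3 z hz q hq, mem_ball_zero_iff.1 hz]
  obtain ⟨L, L1, L2⟩ := slope_ext (Φ := fun z q => s f (q, S.g f z q))
    (C := c4 + c3 * (C0 * (c2 * c1) ^ 2)) δ0
    ((hs.cont f).comp (continuousOn_snd.prodMk ((hS.cont f).mono
      (prod_mono (ball_subset_ball δ1) (ball_subset_ball δ1)))) fun p hp => hr (b4 _ hp.1 _ hp.2))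
    fun z hz ε ε0 => by
      obtain ⟨z', -, f', a1, a2, a3, a4, a5⟩ := hd z (ball_subset_ball δd hz) (min ε (δ - ‖z‖))
        (lt_min ε0 (sub_pos.2 (mem_ball_zero_iff.1 hz)))
      have hz' : z' ∈ ball (0 : E × E) δ := by
        have := norm_le_norm_add_norm_sub' z' z
        rw [mem_ball_zero_iff]
        linarith [a1.trans_le (min_le_right _ _)]
      have hzd : z' ∈ At.dom f f' := a3 (ball_subset_ball δd hz')
      obtain ⟨L0, l1, l2⟩ := h0 f' a5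
      obtain ⟨L', l3, l4⟩ := h4 f f' δ z' (s f' 0) L0 a2 (ball_subset_ball δ1 hz') δ1
        (fun q hq => a3 (b4 z' hz' q hq)) (hM f' 0 (mem_ball_self hA.r_pos)) l1 z'.1 (b1 z' hz')
      refine ⟨z', hz', a1.trans_le (min_le_left _ _), L', by linarith, fun q hq => ?_⟩
      have hw := a3 (b4 z' hz' q hq)
      have e1 := hS.nat f f' a2 z' hzd q hw
      have e2 := hs.rel f f' a2 _ hw
      have e3 := hs.rel f f' a2 _ hzd
      have n1 := ((h2 ⟨(f, f'), a2⟩).2 _ (convex_ball _ _) a3 z' (ball_subset_ball δd hz') _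
        (b4 z' hz' q hq)).1
      have n2 := ((h3 ⟨(f, f'), a2⟩).1 _ hw).1
      have l5 := l4 q hq
      simp only [b0 z' hz', a4, sub_zero, Prod.fst_zero, map_zero, add_zero] at e1 e3 n1 n2 l5 ⊢
      set t := At.T f f' (q, S.g f z' q)
      have n3 : ‖t.1‖ ≤ c2 * c1 * ‖q - z'.1‖ := (norm_fst_le t).trans (n1.trans (by
        rw [mul_assoc]
        exact mul_le_mul_of_nonneg_left (b3 z' hz' q hq) (by linarith)))
      have n4 := l2 t.1 (mem_ball_zero_iff.2 (n3.trans_lt ((mul_lt_mul_of_pos_left (b2 z' hz' q hq)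
        (by positivity)).trans_le δ3)))
      rw [← e1] at n4
      have n5 : ‖A f f' (q, S.g f z' q) (s f' t - s f' 0 - L0 t.1)‖ ≤
          c3 * (C0 * (c2 * c1 * ‖q - z'.1‖) ^ 2) :=
        (ContinuousLinearMap.le_opNorm _ _).trans (mul_le_mul n2 (n4.trans (by gcongr))
          (norm_nonneg _) (by linarith))
      rw [e2, e3]
      calc _ = ‖A f f' (q, S.g f z' q) (s f' t - s f' 0 - L0 t.1) +
            (A f f' (q, S.g f z' q) (s f' 0 + L0 t.1) - A f f' z' (s f' 0) - L' (q - z'.1))‖ := by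
            simp only [map_sub, map_add]
            congr 1
            abel
        _ ≤ _ := (norm_add_le _ _).trans ((add_le_add n5 l5).trans_eq (by ring))
  exact ⟨δ, δ0, L, L1, fun z hz => ⟨(L2 z hz).1, fun q hq => by
    simpa only [b0 z hz] using (L2 z hz).2 q hq⟩⟩

end Crest.Agent.N221.Ex
end

-- ▼ part N221/Ex/Main

/-! Row 221, block EXIT: the first jet of a section is a section; all sections are smooth. -/

set_option autoImplicit false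

open Set Metric Filter Topology ContinuousLinearMap
open scoped ContDiff

namespace Crest.Agent.N221.Ex

namespace Jet

variable {X V : Type} [NormedAddCommGroup X] [NormedSpace ℝ X] [NormedAddCommGroup V]
  [NormedSpace ℝ V]

/-- the cocycle of first jets as a function of `(A z, DA z, DT z)` -/
noncomputable def jm (p : (V →L[ℝ] V) × (X →L[ℝ] V →L[ℝ] V) × (X →L[ℝ] X)) :
    (V × (X →L[ℝ] V)) →L[ℝ] (V × (X →L[ℝ] V)) :=
  (p.1.comp (fst ℝ V _)).prod (((compL ℝ X V V p.1).comp ((compL ℝ X X V).flip p.2.2)).comp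
    (snd ℝ V _) + p.2.1.flip.comp (fst ℝ V _))

lemma jm_apply (p : (V →L[ℝ] V) × (X →L[ℝ] V →L[ℝ] V) × (X →L[ℝ] X)) (w : V × (X →L[ℝ] V)) :
    jm p w = (p.1 w.1, p.1.comp (w.2.comp p.2.2) + p.2.1.flip w.1) := rfl

lemma jm_smooth [FiniteDimensional ℝ X] [FiniteDimensional ℝ V] :
    ContDiff ℝ ∞ (jm (X := X) (V := V)) := by
  refine contDiff_clm_apply_iff.2 fun w => ?_
  simp only [jm_apply]
  refine ContDiff.prodMk (by fun_prop) (contDiff_clm_apply_iff.2 fun e => ?_)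
  simp only [add_apply, comp_apply, flip_apply]
  fun_prop

variable {E : Type} [NormedAddCommGroup E] [NormedSpace ℝ E] {At : Atl E}
  {A : At.F → At.F → E × E → V →L[ℝ] V} {s : At.F → E × E → V}

/-- the chain rule for a section -/
lemma der (hA : At.Ok) (hs : Sec At A s) {f f' : At.F} (hc : At.cl f f') {z : E × E}
    (hz : z ∈ At.dom f f') (h : ContDiffAt ℝ 1 (s f') (At.T f f' z)) :
    ContDiffAt ℝ 1 (s f) z ∧ fderiv ℝ (s f) z = (A f f' z).comp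
      ((fderiv ℝ (s f') (At.T f f' z)).comp (fderiv ℝ (At.T f f') z)) +
        (fderiv ℝ (A f f') z).flip (s f' (At.T f f' z)) := by
  have e : s f =ᶠ[𝓝 z] fun y => A f f' y (s f' (At.T f f' y)) :=
    eventually_of_mem ((hA.ub.op ⟨(f, f'), hc⟩).mem_nhds hz) (hs.rel f f' hc)
  have h1 : ContDiffAt ℝ 1 (A f f') z :=
    (hs.ub.at (i := ⟨(f, f'), hc⟩) hz).of_le (by exact_mod_cast le_top)
  have h2 : ContDiffAt ℝ 1 (At.T f f') z :=
    (hA.ub.at (i := ⟨(f, f'), hc⟩) hz).of_le (by exact_mod_cast le_top)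
  have h3 := h.comp z h2
  refine ⟨(h1.clm_apply h3).congr_of_eventuallyEq e, ?_⟩
  rw [e.fderiv_eq, ← fderiv_comp z (h.differentiableAt one_ne_zero) (h2.differentiableAt one_ne_zero)]
  exact fderiv_clm_apply (h1.differentiableAt one_ne_zero) (h3.differentiableAt one_ne_zero)

end Jet

variable {E : Type} [NormedAddCommGroup E] [NormedSpace ℝ E] [FiniteDimensional ℝ E]
  {At : Atl E} {S U : Side At}

theorem Sec.jet (hA : At.Ok) (hS : S.Ok) (hU : U.Ok) (hT : Trans S U) {V : Type}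
    [NormedAddCommGroup V] [NormedSpace ℝ V] [FiniteDimensional ℝ V]
    {A : At.F → At.F → E × E → V →L[ℝ] V} {s : At.F → E × E → V} (hs : Sec At A s) :
    (∀ f, DifferentiableOn ℝ (s f) (ball 0 At.r)) ∧
    ∃ A' : At.F → At.F → E × E → (V × (E × E →L[ℝ] V)) →L[ℝ] (V × (E × E →L[ℝ] V)),
      Sec At A' fun f z => (s f z, fderiv ℝ (s f) z) := by
  obtain ⟨C, hC, h⟩ := c1_of_leaf hA hS hU hT (leaf hA hS hs) (leaf hA hU hs)
  obtain ⟨M, hM, hb⟩ := hs.bdd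
  obtain ⟨a, ha, h1⟩ := hs.ub.bd 0
  obtain ⟨b, hb0, h2⟩ := hs.ub.bd 1
  obtain ⟨c, hc, h3⟩ := hA.ub.bd 1
  simp only [norm_iteratedFDeriv_zero, norm_iteratedFDeriv_one] at h1 h2 h3
  have key : ∀ f, ∀ z ∈ ball (0 : E × E) At.r, ContDiffAt ℝ 1 (s f) z ∧
      ‖fderiv ℝ (s f) z‖ ≤ a * (C * c) + b * M := fun f z hz => by
    obtain ⟨f', hf, hz', e⟩ := hA.ctr f z hz
    obtain ⟨δ, hδ, h4, h5⟩ := h f'
    obtain ⟨h6, h7⟩ := Jet.der hA hs hf hz' (e ▸ h4.contDiffAt (ball_mem_nhds 0 hδ))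
    refine ⟨h6, ?_⟩
    rw [h7, e]
    refine norm_add_le_of_le ((opNorm_comp_le _ _).trans (mul_le_mul (h1 ⟨(f, f'), hf⟩ z hz')
      ((opNorm_comp_le _ _).trans (mul_le_mul h5 (h3 ⟨(f, f'), hf⟩ z hz') (norm_nonneg _) hC.le))
      (norm_nonneg _) ha.le)) ((le_opNorm _ _).trans ?_)
    rw [opNorm_flip]
    exact mul_le_mul (h2 ⟨(f, f'), hf⟩ z hz') (hb f' 0 (mem_ball_self hA.r_pos)) (norm_nonneg _)
      hb0.le
  have h4 : ∀ f, ContDiffOn ℝ 1 (s f) (ball 0 At.r) := fun f z hz =>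
    (key f z hz).1.contDiffWithinAt
  refine ⟨fun f => (h4 f).differentiableOn one_ne_zero,
    fun f f' z => Jet.jm (A f f' z, fderiv ℝ (A f f') z, fderiv ℝ (At.T f f') z),
    (hs.ub.prod (hs.ub.fderiv.prod hA.ub.fderiv)).smooth Jet.jm_smooth,
    fun f => (hs.cont f).prodMk ((h4 f).continuousOn_fderiv_of_isOpen isOpen_ball le_rfl),
    ⟨max M (a * (C * c) + b * M), lt_max_of_lt_left hM, fun f z hz =>
      max_le_max (hb f z hz) (key f z hz).2⟩, fun f f' hf z hz => ?_, hs.gd.prod hs.gd.fderiv⟩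
  rw [Jet.jm_apply]
  exact Prod.ext (hs.rel f f' hf z hz) (Jet.der hA hs hf hz (key f' _ (hA.maps f f' hz)).1).2

theorem Sec.smooth (hA : At.Ok) (hS : S.Ok) (hU : U.Ok) (hT : Trans S U) {V : Type}
    [NormedAddCommGroup V] [NormedSpace ℝ V] [FiniteDimensional ℝ V]
    {A : At.F → At.F → E × E → V →L[ℝ] V} {s : At.F → E × E → V} (hs : Sec At A s) (f : At.F) :
    ContDiffOn ℝ ∞ (s f) (ball 0 At.r) := by
  refine contDiffOn_infty.2 fun k => ?_
  induction k generalizing V with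
  | zero => exact contDiffOn_zero.2 (hs.cont f)
  | succ k ih =>
    obtain ⟨h1, A', h2⟩ := hs.jet hA hS hU hT
    rw [Nat.cast_succ, contDiffOn_succ_iff_fderiv_of_isOpen isOpen_ball]
    exact ⟨h1 f, by simp, (ih h2).snd⟩

end Crest.Agent.N221.Ex
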