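import Crest.Agent.N221.A1.Bas
import Crest.Agent.N221.Br.Alg_Mg
import Crest.Agent.N221.A
import Crest.Agent.N221.C.Loc
import Crest.Agent.N221.D.Bas
import Crest.Agent.N221.Ch.Crs
import Crest.Agent.N221.Ex.Pj
import Crest.Agent.N221.Ex.Main
import Crest.Agent.N221.Dy.Sp
import Crest.Agent.N221.A1.Defs

-- ▼ part N221/Br/Main
section

/-! Row 221, block Br (helper93): the bridge `brS : BrS` from G0 to the hull. -/

set_option autoImplicit false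
set_option linter.unusedSectionVars false
set_option linter.unusedVariables false

open Set Filter Topology Module Function
open scoped ContDiff
open Crest.GeometryTopology.Submanifold

noncomputable section

namespace Crest.Agent.N221.Br

section sp
variable {E : Type} [NormedAddCommGroup E] [NormedSpace ℝ E] [FiniteDimensional ℝ E]

/-- the Lie algebra of a bilinear form -/
def sp (B : E →L[ℝ] E →L[ℝ] ℝ) : Submodule ℝ (E →L[ℝ] E) where
  carrier := {X | ∀ v w, B (X v) w + B v (X w) = 0}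
  add_mem' := fun {X Y} h h' v w => by
    have := h v w; have := h' v w
    simp only [add_apply, map_add]; linarith
  zero_mem' := fun v w => by simp
  smul_mem' := fun c X h v w => by
    simp only [smul_apply, map_smul, smul_eq_mul]; rw [← mul_add, h v w, mul_zero]

lemma sp_lie (B : E →L[ℝ] E →L[ℝ] ℝ) : Hu.IsLie (sp B) := fun X hX Y hY v w => by
  have := hX (Y v) w; have := hY (X v) w; have := hX v (Y w); have := hY v (X w)
  simp only [sub_apply, mul_apply_eq_comp, map_sub]; linarith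

lemma sp_eqv {B : E →L[ℝ] E →L[ℝ] ℝ} {L : E ≃L[ℝ] E} (e : ∀ v w, B (L v) (L w) = B v w)
    (X : E →L[ℝ] E) : X ∈ sp B ↔ L.conjContinuousAlgEquiv X ∈ sp B := by
  refine ⟨fun h v w => ?_, fun h v w => ?_⟩
  · obtain ⟨v, rfl⟩ := L.surjective v
    obtain ⟨w, rfl⟩ := L.surjective w
    simpa [e] using h v w
  · simpa [e] using h (L v) (L w)

end sp

variable {m : ℕ} {P : PD m} {z : ZZ m}

/-- `dform (S true)` read on the stable graph -/
def ps (P : PD m) (z : ZZ m) : Euc m [⋀^Fin m]→ₗ[ℝ] ℝ :=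
  (Matrix.detRowAlternating : (Fin m → ℝ) [⋀^Fin m]→ₗ[ℝ] ℝ).compLinearMap
    ((WithLp.linearEquiv 2 ℝ (Fin m → ℝ)).toLinearMap ∘ₗ
      (P.S false z - P.S true z : Euc m →L[ℝ] Euc m).toLinearMap)

lemma ps_apply (w : Fin m → Euc m) :
    ps P z w = Matrix.det (Matrix.of fun i j => (P.S false z (w i) - P.S true z (w i)) j) := rfl

/-- the standard basis -/
def bs (m : ℕ) : Basis (Fin m) ℝ (Euc m) := (EuclideanSpace.basisFun (Fin m) ℝ).toBasis

lemma bs_apply (i : Fin m) : bs m i = EuclideanSpace.single i 1 := by simp [bs]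

lemma dform_gbas : dform (P.S true z) (gbas (P.S false z)) = ps P z (bs m) := by
  simp only [ps_apply, bs_apply]; rfl

lemma ps_ne (h : P.Ok) (hz : z ∈ P.W) : ps P z (bs m) ≠ 0 := fun e => by
  have h1 : ps P z (fun i => -Ring.inverse (P.S true z - P.S false z) (bs m i)) = 1 := by
    rw [ps_apply, ← Matrix.det_one (n := Fin m)]
    congr 1
    ext i j
    have := h.S_inv hz (bs m i)
    rw [Matrix.of_apply, map_neg, map_neg, neg_sub_neg, this, bs_apply, Matrix.one_apply]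
    simp [eq_comm]
  rw [(ps P z).eq_smul_basis_det (bs m), e] at h1
  simp at h1

/-- the character is the trace on `E / E^u` -/
lemma dv_dform (h : P.Ok) (hz : z ∈ P.W) {σ : Fm m} (hσ : ∀ v, σ v = dform (P.S true z) v)
    (X : ZZ m →L[ℝ] ZZ m) : dv m (ZZ m) X σ (gbas (P.S false z)) =
      Hu.tr ((1 - P.pi z) * X) * ps P z (bs m) := by
  let ι : Euc m →ₗ[ℝ] ZZ m := LinearMap.prod LinearMap.id (P.S false z).toLinearMap
  let q : ZZ m →ₗ[ℝ] Euc m := LinearMap.fst ℝ _ _ ∘ₗ ((1 - P.pi z) * X).toLinearMap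
  have e1 : ∀ v, ι (q v) = X v - P.pi z (X v) := fun v =>
    Prod.ext rfl (PD.mem_E.1 (h.sub_pi hz (X v))).symm
  have e2 : ι ∘ₗ q = ((1 - P.pi z) * X).toLinearMap := LinearMap.ext e1
  rw [Hu.tr, ← e2, LinearMap.trace_comp_comm', ← sum_det_update, dv_apply]
  refine Finset.sum_congr rfl fun i _ => ?_
  rw [hσ, ps_apply, dform]
  congr 1
  ext j l
  by_cases hj : j = i
  · subst hj
    have e3 : ι (bs m j) = gbas (P.S false z) j := by rw [bs_apply]; rfl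
    have e4 := e1 (ι (bs m j))
    have e5 := PD.mem_E.1 (PD.pi_mem (P := P) (z := z) (X (ι (bs m j))))
    have a1 : q (ι (bs m j)) = (X (ι (bs m j)) - P.pi z (X (ι (bs m j)))).1 := rfl
    have a2 : P.S false z (q (ι (bs m j))) = (X (ι (bs m j)) - P.pi z (X (ι (bs m j)))).2 :=
      congrArg Prod.snd e4
    simp only [Matrix.of_apply, update_self, LinearMap.comp_apply]
    rw [a2, a1, ← e3, Prod.snd_sub, Prod.fst_sub, map_sub, e5]
    rw [sub_sub_sub_cancel_right]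
  · simp only [Matrix.of_apply, update_of_ne hj, bs_apply]; rfl

theorem brS : BrS := by
  rintro m P hP ⟨O, r, A, hO, hne, hW, hA, h1, h2, h3⟩
  let K : ZZ m → Submodule ℝ (Fm m × ℝ) := fun z => (A z).ker
  let K₁ : ZZ m → Submodule ℝ (Fm m) := fun z =>
    (K z).map (ContinuousLinearMap.fst ℝ (Fm m) ℝ).toLinearMap
  let K₀ : ZZ m → Submodule ℝ (Fm m) := fun z =>
    (K z).comap (ContinuousLinearMap.inl ℝ (Fm m) ℝ).toLinearMap
  have m1 : ∀ z φ, φ ∈ K₁ z ↔ ∃ t, A z (φ, t) = 0 := fun z φ =>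
    ⟨fun ⟨a, b, c⟩ => ⟨a.2, c ▸ b⟩, fun ⟨t, b⟩ => ⟨(φ, t), b, rfl⟩⟩
  have m0 : ∀ z φ, φ ∈ K₀ z ↔ A z (φ, 0) = 0 := fun z φ => Iff.rfl
  have cK : ∀ z ∈ O, SB.Cut ∞ K z := fun z hz => SB.Cut.ker (SB.Cn.of_on hA hO hz)
  obtain ⟨O₁, a1, a2, a3, a4⟩ := SB.Cut.shrink hO hne cK
  obtain ⟨O₂, b1, b2, b3, b4⟩ := SB.Gen.shrink (F := K₁) a1 a2 fun z hz =>
    (a4 z hz).gen.map (SB.Cn.const _)
  obtain ⟨O₃, c1, c2, c3, c4⟩ := SB.Cut.shrink (F := K₀) b1 b2 fun z hz =>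
    (a4 z (b3 hz)).cut.comap (SB.Cn.const _)
  let h : ZZ m → Submodule ℝ (ZZ m →L[ℝ] ZZ m) := fun z =>
    (stab (K₀ z) ⊓ stab (K₁ z)) ⊓ sp (omL m)
  have cs : ∀ {F : ZZ m → Submodule ℝ (Fm m)} {z}, SB.SmAt ∞ F z →
      SB.Cut ∞ (fun y => stab (F y)) z := fun hF =>
    SB.Cut.trans hF.gen hF.cut (μ := fun _ => dv m (ZZ m)) (SB.Cn.const _)
      (Eventually.of_forall fun _ _ => Iff.rfl)
  obtain ⟨O₄, d1, d2⟩ := Hm.sm_of_cut (M := h) c1 c2 fun z hz =>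
    ((cs (c4 z hz)).inf (cs (b4 z (c3 hz)))).inf (SB.SmAt.const _).cut
  have sub : O₄ ⊆ O := d1.sub.trans (c3.trans (b3.trans a3))
  have eqK : ∀ z ∈ O, ∀ T, P.R z T false → T z ∈ O → ∀ L : ZZ m ≃L[ℝ] ZZ m,
      HasFDerivAt T (L : ZZ m →L[ℝ] ZZ m) z → (∀ φ, φ ∈ K₀ (T z) ↔ pb m L φ ∈ K₀ z) ∧
        (∀ φ, φ ∈ K₁ (T z) ↔ pb m L φ ∈ K₁ z) ∧ ∀ v w, omL m (L v) (L w) = omL m v w := by
    intro z hz T hR hT L hL
    obtain ⟨c, hc, e⟩ := h3 z hz T hR hT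
    have e' := hP.sp z T false hR
    rw [hL.fderiv] at e e'
    refine ⟨fun φ => ?_, fun φ => ?_, fun v w => by simpa using e' v w⟩
    · rw [m0, m0, e, mul_zero, pb_eq]
    · rw [m1, m1, pb_eq]
      exact ⟨fun ⟨t, a⟩ => ⟨_, (e φ t).1 a⟩,
        fun ⟨t, a⟩ => ⟨t / c, (e φ _).2 (by rwa [mul_div_cancel₀ _ hc])⟩⟩
  refine ⟨O₄, h, ⟨d1.opn, d1.ne, sub.trans hW⟩, d2, fun z hz X hX Y hY =>
    ⟨⟨stab_lie _ X hX.1.1 Y hY.1.1, stab_lie _ X hX.1.2 Y hY.1.2⟩, sp_lie _ X hX.2 Y hY.2⟩,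
    fun z hz X hX v w => by simpa using hX.2 v w, fun z hz X hX Y hY => ?_,
    fun z hz T hR hT L hL X => ?_, fun z hz T hR hT L hL D hD => ?_⟩
  · obtain ⟨σ, t, s1, s2⟩ := h1 z (sub hz)
    obtain ⟨c, hc, e⟩ := h2 z (sub hz)
    have hz' := hW (sub hz)
    have := char_comm (K₀ := K₀ z) (e := gbas (P.S false z)) ((m1 z σ).2 ⟨t, s2⟩)
      (by rw [s1, dform_gbas]; exact ps_ne hP hz') (fun φ => by
        rw [m0, m1]
        refine ⟨fun a => ⟨⟨0, a⟩, (mul_eq_zero.1 (e φ 0 a).symm).resolve_left hc⟩,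
          fun ⟨⟨t, a⟩, b⟩ => ?_⟩
        have := e φ t a
        rwa [this, b, mul_zero] at a) hX.1 hY.1
    rw [dv_dform hP hz' s1, mul_eq_zero, or_iff_left (ps_ne hP hz'), sub_mul, one_mul, Hu.tr_sub,
      Hu.tr_sub, Hu.tr_comm X Y, sub_self, zero_sub, neg_eq_zero] at this
    exact this
  · obtain ⟨e0, e1, e2⟩ := eqK z (sub hz) T hR (sub hT) L hL
    exact and_congr (and_congr (stab_eqv e0 X) (stab_eqv e1 X)) (sp_eqv e2 X)
  · obtain ⟨e0, e1, e2⟩ := eqK z (sub hz) T hR (by rw [hT]; exact sub hz) L hL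
    rw [hT] at e0 e1
    exact ⟨⟨stab_log (fun φ => (e0 φ).1) hD, stab_log (fun φ => (e1 φ).1) hD⟩, hD.form _ e2⟩

end Crest.Agent.N221.Br
end
end

-- ▼ part N221/X/Loc
section

/-! Row 221, block X: from local smoothness of `U` to `Sm`. -/

set_option autoImplicit false

open Set Filter Topology
open scoped ContDiff RealInnerProductSpace
open Crest.GeometryTopology.Submanifold
open Crest.Agent.R241.DDefs Crest.Agent.R241.D2
open Crest.Agent.R208.J Crest.Agent.R208.L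

namespace Crest.Agent.N221.X

variable {n N : ℕ} {a : ℝ} {S : Set (Euc N)} {G : Geo n N (-(a ^ 2)) S}

namespace Loc

/-- a submersion has a smooth local right inverse -/
theorem rinv {E F : Type*} [NormedAddCommGroup E] [NormedSpace ℝ E] [NormedAddCommGroup F]
    [NormedSpace ℝ F] [FiniteDimensional ℝ F] {Θ : E → F} {z : E}
    (hΘ : ∀ᶠ w in 𝓝 z, ContDiffAt ℝ ∞ Θ w) (hs : Function.Surjective (fderiv ℝ Θ z)) :
    ∃ σ : F → E, σ (Θ z) = z ∧ ∀ᶠ y in 𝓝 (Θ z), ContDiffAt ℝ ∞ σ y ∧ Θ (σ y) = y := by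
  haveI := FiniteDimensional.complete ℝ F
  have hn : (∞ : WithTop ℕ∞) ≠ 0 := by simp
  obtain ⟨R0, hR⟩ := (fderiv ℝ Θ z).toLinearMap.exists_rightInverse_of_surjective
    (LinearMap.range_eq_top.2 hs)
  set R := LinearMap.toContinuousLinearMap R0
  have c1 : ContDiff ℝ ∞ fun u => z + R u := contDiff_const.add R.contDiff
  have z0 : z + R 0 = z := by simp
  have hg : ∀ᶠ u in 𝓝 (0 : F), ContDiffAt ℝ ∞ (fun u => Θ (z + R u)) u := by
    have := c1.continuous.tendsto 0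
    rw [z0] at this
    filter_upwards [this.eventually hΘ] with u hu using hu.comp u c1.contDiffAt
  have hg0 := hg.self_of_nhds
  have hd : HasFDerivAt (fun u => Θ (z + R u)) (ContinuousLinearEquiv.refl ℝ F : F →L[ℝ] F) 0 := by
    have h1 : HasFDerivAt Θ (fderiv ℝ Θ z) (z + R 0) := by
      rw [z0]; exact (hΘ.self_of_nhds.differentiableAt hn).hasFDerivAt
    exact (h1.comp 0 (R.hasFDerivAt.const_add z)).congr_fderiv
      (ContinuousLinearMap.ext fun v => LinearMap.congr_fun hR v)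
  set Φ := hg0.toOpenPartialHomeomorph _ hd hn
  have h0 : (0 : F) ∈ Φ.source := hg0.mem_toOpenPartialHomeomorph_source hd hn
  have e0 : Θ z = Φ 0 := congrArg Θ z0.symm
  rw [e0]
  refine ⟨fun y => z + R (Φ.symm y), by simp only [Φ.left_inv h0, z0], ?_⟩
  have hu : ∀ᶠ u in 𝓝 (0 : F), IsUnit (fderiv ℝ (fun u => Θ (z + R u)) u) :=
    (hg0.continuousAt_fderiv hn).eventually (Units.isOpen.mem_nhds (by
      rw [mem_setOf_eq, hd.fderiv]; exact isUnit_one))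
  have ht := Φ.tendsto_symm h0
  filter_upwards [ht.eventually hu, ht.eventually hg, Φ.open_target.mem_nhds (Φ.map_source h0)]
    with y ⟨u, hu⟩ h2 h3
  refine ⟨c1.contDiffAt.comp y (Φ.contDiffAt_symm (f₀' := ContinuousLinearEquiv.ofUnit u) h3 ?_ h2),
    Φ.right_inv h3⟩
  have h5 : (ContinuousLinearEquiv.ofUnit u : F →L[ℝ] F) =
      fderiv ℝ (fun u => Θ (z + R u)) (Φ.symm y) := by rw [← hu]; rfl
  rw [h5]
  exact (h2.differentiableAt hn).hasFDerivAt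


end Loc

set_option linter.unusedVariables false in
/-- local smooth extensions give a global one -/
theorem sm_of_local (H : Hyp n N a S) (h : ∀ q ∈ US G, ∃ (O : Set (TT N)) (V : TT N → Op N),
    IsOpen O ∧ q ∈ O ∧ ContDiffOn ℝ ∞ V O ∧ EqOn V (U G) (O ∩ US G)) : Sm G := by
  obtain ⟨φ, hφ⟩ := exists_contMDiffMap_forall_mem_convex_of_local (n := ⊤) (modelWithCornersSelf ℝ (TT N))
    (t := fun y => {v : Op N | y ∈ US G → v = U G y})
    (fun y a ha b hb s t _ _ hst hy => by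
      rw [ha hy, hb hy, ← add_smul, hst, one_smul]) fun y => by
    by_cases hy : y ∈ US G
    · obtain ⟨O, V, h1, h2, h3, h4⟩ := h y hy
      exact ⟨O, h1.mem_nhds h2, V, contMDiffOn_iff_contDiffOn.2 h3, fun z hz hz' => h4 ⟨hz, hz'⟩⟩
    · exact ⟨_, (isCompact_US G H.cpt).isClosed.isOpen_compl.mem_nhds hy, fun _ => 0,
        contMDiffOn_const, fun z hz hz' => (hz hz').elim⟩
  exact ⟨φ, φ.contMDiff.contDiff, fun p hp => hφ p hp⟩


end Crest.Agent.N221.X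
end

-- ▼ part N221/Ch/Exit
section

/-! Row 221, block Ch: if `E^u` is smooth in the charts then `U` is smooth. -/

set_option autoImplicit false
set_option linter.unusedSectionVars false
set_option linter.unusedVariables false

open MeasureTheory Set Filter Topology Metric
open scoped ContDiff RealInnerProductSpace ENNReal
open Crest.GeometryTopology.Submanifold
open Crest.Agent.R241.DDefs Crest.Agent.R241.D2
open Crest.Agent.R208.J Crest.Agent.R208.L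

noncomputable section

namespace Crest.Agent.N221.Exit

theorem contDiffAt_clm {D E F : Type*} [NormedAddCommGroup D] [NormedSpace ℝ D]
    [NormedAddCommGroup E] [NormedSpace ℝ E] [FiniteDimensional ℝ E]
    [NormedAddCommGroup F] [NormedSpace ℝ F] {m : WithTop ℕ∞} {f : D → E →L[ℝ] F} {x : D}
    (h : ∀ y, ContDiffAt ℝ m (fun x => f x y) x) : ContDiffAt ℝ m f x := by
  let d := Module.finrank ℝ E
  have hd : d = Module.finrank ℝ (Fin d → ℝ) := (Module.finrank_fin_fun ℝ).symm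
  let e₁ := ContinuousLinearEquiv.ofFinrankEq hd
  let e₂ := (e₁.arrowCongr (1 : F ≃L[ℝ] F)).trans (ContinuousLinearEquiv.piRing (Fin d))
  rw [← Function.id_comp f, ← e₂.symm_comp_self]
  exact e₂.symm.contDiff.contDiffAt.comp x (contDiffAt_pi.mpr fun i => h _)

variable {n N m : ℕ} {a : ℝ} {S : Set (Euc N)} {G : Geo n N (-(a ^ 2)) S}

/-- `U` from its compression by `J` -/
lemma U_eq_J (h : IsU G (U G)) {q : TT N} (hq : q ∈ US G) {J B : Euc m →L[ℝ] Euc N}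
    (hB : B = Pv G q ∘L J) (hi : Function.Injective B) (hs : ∀ w ∈ Vp G q, ∃ e, B e = w) :
    U G q = B ∘L gi B ∘L (J.adjoint ∘L U G q ∘L J) ∘L gi B ∘L B.adjoint := by
  have h1 : ∀ w, B.adjoint w = J.adjoint (Pv G q w) := fun w => ext_inner_right ℝ fun e => by
    rw [ContinuousLinearMap.adjoint_inner_left, ContinuousLinearMap.adjoint_inner_left,
      inner_Pv hq.1, hB, ContinuousLinearMap.comp_apply]
  ext1 w
  obtain ⟨e0, h0⟩ := hs _ (Pv_mem hq.1 hq.2 w)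
  obtain ⟨e1, h2⟩ := hs _ (h.mem hq w)
  have h3 : B.adjoint w = B.adjoint (B e0) := by rw [h0, h1, h1, Pv_Pv hq]
  have h4 : U G q (J e0) = B e1 := by
    rw [h2, ← h.comp_Pv q hq w, ← h0, hB, ContinuousLinearMap.comp_apply, h.comp_Pv q hq]
  have h5 : J.adjoint (B e1) = B.adjoint (B e1) := by rw [h1, h2, h.Pv_comp hq]
  simp only [ContinuousLinearMap.comp_apply]
  rw [h3, gi_gram hi, h4, h5, gi_gram hi, h2]

/-- the linearised flow on the unstable space -/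
def Dv (G : Geo n N (-(a ^ 2)) S) (q : TT N) (t : ℝ) : Euc N →L[ℝ] TT N :=
  fderiv ℝ (fl G) (q, t) ∘L ContinuousLinearMap.inl ℝ (TT N) ℝ ∘L H.vu G q

/-- the invertible extension of `Ju` -/
def Jx (G : Geo n N (-(a ^ 2)) S) (q : TT N) (t : ℝ) : Op N :=
  PTi G q t ∘L ContinuousLinearMap.fst ℝ _ _ ∘L Dv G q t +
    (ContinuousLinearMap.id ℝ (Euc N) - Pv G q)

lemma isUnit_Jx (H : Hyp n N a S) {q : TT N} (hq : q ∈ US G) (t : ℝ) : IsUnit (Jx G q t) :=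
  ContinuousLinearMap.isUnit_iff_isUnit_toLinearMap.2 ((LinearMap.isUnit_iff_isUnit_det _).2
    ((det_Ju H.cpt (N221.H.isU H) hq t).trans_ne (Real.exp_ne_zero _)).isUnit)

lemma U_fl (H : Hyp n N a S) {q : TT N} (hq : q ∈ US G) (t : ℝ) :
    U G (fl G (q, t)) = (ContinuousLinearMap.snd ℝ _ _ ∘L Dv G q t -
      dP G (fl G (q, t)) ∘L ContinuousLinearMap.fst ℝ _ _ ∘L Dv G q t) ∘L
        Ring.inverse (Jx G q t) ∘L PTi G q t := by
  have hU := N221.H.isU (G := G) H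
  have h1 : ∀ j, U G (fl G (q, t)) (PT G q t (Jx G q t j)) =
      (Dv G q t j).2 - dP G (fl G (q, t)) (Dv G q t j).1 := fun j => by
    have e1 : Dv G q t j = _ := N221.H.Dfl_vu H hq t j
    have e2 : Jx G q t j = Ju G q t j + (j - Pv G q j) := rfl
    rw [e1, N221.H.vu_apply, add_sub_cancel_left, e2, map_add, map_add,
      ← hU.comp_Pv _ (fl_US hq t) (PT G q t (j - _)), Pv_PT hq.1, map_sub, Pv_Pv hq, sub_self,
      map_zero, map_zero, add_zero]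
  ext1 w
  have e3 : Jx G q t (Ring.inverse (Jx G q t) (PTi G q t w)) = PTi G q t w :=
    congrArg (fun A : Op N => A (PTi G q t w)) (Ring.mul_inverse_cancel _ (isUnit_Jx H hq t))
  have := h1 (Ring.inverse (Jx G q t) (PTi G q t w))
  rw [e3, PT_PTi hq.1] at this
  exact this

end Crest.Agent.N221.Exit

namespace Crest.Agent.N221.Cov

variable {n N m : ℕ} {a : ℝ} {S : Set (Euc N)} {G : Geo n N (-(a ^ 2)) S} (C : Cov G)
variable {f f' f'' : FF n N m} {z z' : ZZ m} {x y y' ξ η : Euc n} {v u u' : Euc N} {q q' : Euc m}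
  {g : Euc n → Euc n} {s t : ℝ}
variable (H : Hyp n N a S) (hm : m + 1 = n)
include H hm

/-- `inner_HH`: `B* U B` is smooth, `B = Pv J`, `U = B gi(B) (B* U B) gi(B) B*` -/
lemma contDiffAt_U_chart (hf : C.Frm f) (hz : z ∈ C.Dm f) (h : ContDiffAt ℝ ∞ (C.Su f) z) :
    ContDiffAt ℝ ∞ (fun z => U G (C.pr (C.hy f z.1), C.uv f z)) z := by
  have hO := (C.isOpen_Dm H hf).mem_nhds hz
  set w : ZZ m → TT N := fun z => (C.pr (C.hy f z.1), C.uv f z) with hw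
  set B : ZZ m → Euc m →L[ℝ] Euc N := fun z => Pv G (w z) ∘L C.Jh f z.1 with hB
  have c1 : ContDiffAt ℝ ∞ (C.uv f) z :=
    (C.contDiffAt_uv H hf hz).comp (f := fun z => (f, z)) z (contDiffAt_const.prodMk contDiffAt_id)
  have c2 : ContDiffAt ℝ ∞ w z :=
    (C.pr_smooth.comp ((C.contDiff_hy' f).comp contDiff_fst)).contDiffAt.prodMk c1
  have c3 : ContDiffAt ℝ ∞ (fun z : ZZ m => C.Jh f z.1) z :=
    ((C.contDiff_Jh' f).comp contDiff_fst).contDiffAt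
  have c4 : ContDiffAt ℝ ∞ B z := (contDiff_Pv.contDiffAt.comp z c2).clm_comp c3
  have hb : ∀ z ∈ C.Dm f, Function.Injective (B z) ∧ ∀ k ∈ Vp G (w z), ∃ e, B z e = k := by
    intro z hz
    have h1 : (C.ge f z).1 ≠ 0 := norm_ne_zero_iff.1 ((C.ge_GG H hf hz).1.trans_ne one_ne_zero)
    have h2 : C.Bs f (C.ge f z).1 z.1 = B z := by rw [Bs, C.W_ge H hf hz]
    have h3 := C.uv_side H hf hz
    refine ⟨(injective_iff_map_eq_zero _).2 fun e he => ?_, fun k hk => ?_⟩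
    · have := C.le_Bs H hf h1 z.1 e
      rw [h2, he, norm_zero, C.W_ge H hf hz] at this
      exact norm_le_zero_iff.1 (nonpos_of_mul_nonpos_right this (abs_pos.2 h3.ne'))
    · rw [← h2]
      exact C.Bs_surj H hm hf h1 (by rw [C.W_ge H hf hz]; exact h3.ne') (by rwa [C.W_ge H hf hz])
  have c5 : ContDiffAt ℝ ∞ (fun z => gi (B z)) z := (contDiffAt_gi (hb z hz).1).comp z c4
  have c6 : ContDiffAt ℝ ∞ (fun z => (C.Jh f z.1).adjoint ∘L U G (w z) ∘L C.Jh f z.1) z := by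
    refine Exit.contDiffAt_clm fun e => ?_
    have c7 : ContDiff ℝ ∞ fun z : ZZ m => (fderiv ℝ (C.Jh f) z.1 e).adjoint :=
      contDiff_adj.comp ((((C.contDiff_Jh' f).fderiv_right (m := ∞) (by simp)).comp
        contDiff_fst).clm_apply contDiff_const)
    refine ((h.clm_apply (contDiffAt_const (c := e))).sub (c7.contDiffAt.clm_apply c1)).congr_of_eventuallyEq ?_
    filter_upwards [hO] with z hz
    have h1 : (C.ge f z).2 ≠ 0 := norm_ne_zero_iff.1 ((C.ge_GG H hf hz).2.1.trans_ne one_ne_zero)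
    refine ext_inner_right ℝ fun e' => ?_
    have h2 := C.inner_HH H h1 f z.1 e e'
    rw [C.W_ge' H hf hz, rev, neg_neg, inner_neg_right] at h2
    rw [inner_sub_left, Su, neg_apply, inner_neg_left, h2,
      ContinuousLinearMap.comp_apply, ContinuousLinearMap.adjoint_inner_left,
      ContinuousLinearMap.adjoint_inner_left, real_inner_comm (fderiv ℝ (C.Jh f) z.1 e e')]
    simp only [ContinuousLinearMap.comp_apply, hw]
    ring
  refine (c4.clm_comp (c5.clm_comp (c6.clm_comp (c5.clm_comp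
    (contDiff_adj.contDiffAt.comp z c4))))).congr_of_eventuallyEq ?_
  filter_upwards [hO] with z hz
  exact Exit.U_eq_J (N221.H.isU H) (C.un_uv H hf hz) rfl (hb z hz).1 (hb z hz).2

/-- `H.Dfl_vu`: `U (φ_t w) ∘ M₁ = M₂` with `M₁, M₂` smooth in `(w, U w, t)` -/
lemma contDiffAt_U_fl {E : Type} [NormedAddCommGroup E] [NormedSpace ℝ E] {w : E → TT N} {e : E}
    (hw : ContDiffAt ℝ ∞ w e) (hu : ∀ᶠ e' in 𝓝 e, w e' ∈ US G)
    (h : ContDiffAt ℝ ∞ (fun e => U G (w e)) e) (t : ℝ) :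
    ContDiffAt ℝ ∞ (fun k : E × ℝ => U G (fl G (w k.1, k.2))) (e, t) := by
  have hq := hu.self_of_nhds
  have c0 : ContDiffAt ℝ ∞ (fun k : E × ℝ => w k.1) (e, t) := hw.comp (e, t) contDiffAt_fst
  have c1 : ContDiffAt ℝ ∞ (fun k : E × ℝ => (w k.1, k.2)) (e, t) := c0.prodMk contDiffAt_snd
  have c2 : ContDiffAt ℝ ∞ (fun k : E × ℝ => Pv G (w k.1)) (e, t) :=
    contDiff_Pv.contDiffAt.comp (e, t) c0
  have c3 : ContDiffAt ℝ ∞ (fun k : E × ℝ => N221.H.vu G (w k.1)) (e, t) :=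
    Exit.contDiffAt_clm fun j => (c2.clm_apply contDiffAt_const).prodMk
      ((((contDiff_dP G).contDiffAt.comp (e, t) c0).clm_apply (c2.clm_apply contDiffAt_const)).add
        ((ContDiffAt.comp (f := Prod.fst) (e, t) h contDiffAt_fst).clm_apply contDiffAt_const))
  have c4 : ContDiffAt ℝ ∞ (fun k : E × ℝ => Exit.Dv G (w k.1) k.2) (e, t) :=
    (((contDiffAt_fl' G hq.1 t).fderiv_right (m := ∞) (by simp)).comp (e, t) c1).clm_comp
      (contDiffAt_const.clm_comp c3)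
  have c5 : ContDiffAt ℝ ∞ (fun k : E × ℝ => PTi G (w k.1) k.2) (e, t) :=
    ContDiffAt.comp (g := fun z : TT N × ℝ => PTi G z.1 z.2) (f := fun k : E × ℝ => (w k.1, k.2))
      (e, t) (contDiffAt_PTi hq.1 t) c1
  have c6 : ContDiffAt ℝ ∞ (fun k : E × ℝ => Exit.Jx G (w k.1) k.2) (e, t) :=
    (c5.clm_comp (contDiffAt_const.clm_comp c4)).add (contDiffAt_const.sub c2)
  have c7 : ContDiffAt ℝ ∞ (fun k : E × ℝ => Ring.inverse (Exit.Jx G (w k.1) k.2)) (e, t) :=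
    ContDiffAt.comp (g := Ring.inverse) (e, t)
      (contDiffAt_ringInverse ℝ (Exit.isUnit_Jx H hq t).unit) c6
  have c8 : ContDiffAt ℝ ∞ (fun k : E × ℝ => dP G (fl G (w k.1, k.2))) (e, t) :=
    (contDiff_dP G).contDiffAt.comp (e, t) ((contDiffAt_fl' G hq.1 t).comp (e, t) c1)
  exact (((contDiffAt_const.clm_comp c4).sub (c8.clm_comp (contDiffAt_const.clm_comp c4))).clm_comp
    (c7.clm_comp c5)).congr_of_eventuallyEq
      (((continuous_fst.tendsto (e, t)).eventually hu).mono fun k hk => Exit.U_fl H hk k.2)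

omit hm in
/-- pointwise version of `X.sm_of_local` (`U (pr y, P w / ‖P w‖)` is smooth where `P (pr y) w ≠ 0`,
read through a local inverse of `pr`) -/
lemma sm_of_pt (h : ∀ y u, C.Un y u → ∃ V : Euc n × Euc N → Op N, ContDiffAt ℝ ∞ V (y, u) ∧
    ∀ᶠ k in 𝓝 (y, u), C.Un k.1 k.2 → V k = U G (C.pr k.1, k.2)) : Sm G := by
  have hn : (∞ : WithTop ℕ∞) ≠ 0 := by simp
  set ν : Euc n × Euc N → Euc N := fun k => ‖G.P (C.pr k.1) k.2‖⁻¹ • G.P (C.pr k.1) k.2 with hν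
  have c0 : ContDiff ℝ ∞ fun k : Euc n × Euc N => G.P (C.pr k.1) k.2 :=
    (G.contDiff_P.comp (C.pr_smooth.comp contDiff_fst)).clm_apply contDiff_snd
  have hF : ∀ k : Euc n × Euc N, G.P (C.pr k.1) k.2 ≠ 0 →
      ContDiffAt ℝ ∞ (fun k => U G (C.pr k.1, ν k)) k := by
    intro k hk
    have h1 : ∀ᶠ k' in 𝓝 k, C.Un k'.1 (ν k') := by
      filter_upwards [c0.continuous.continuousAt.eventually_ne hk] with k' hk'
      exact ⟨⟨C.pr_mem _, (G.T _).smul_mem _ (P_mem G (C.pr_mem _))⟩, norm_smul_inv_norm hk'⟩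
    have h2 : ContDiffAt ℝ ∞ (fun k => (k.1, ν k)) k := contDiffAt_fst.prodMk
      (((c0.contDiffAt.norm ℝ hk).inv (norm_ne_zero_iff.2 hk)).smul c0.contDiffAt)
    obtain ⟨V, v1, v2⟩ := h _ _ h1.self_of_nhds
    refine (v1.comp k h2).congr_of_eventuallyEq ?_
    filter_upwards [h1, h2.continuousAt.tendsto.eventually v2] with k' e1 e2 using (e2 e1).symm
  refine X.sm_of_local H fun q hq => ?_
  obtain ⟨p0, v⟩ := q
  obtain ⟨x, rfl, hx⟩ : ∃ x, C.pr x = p0 ∧ C.Un x v := C.exists_un hq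
  obtain ⟨A0, hA⟩ := (fderiv ℝ C.pr x).toLinearMap.exists_leftInverse_of_injective
    (LinearMap.ker_eq_bot.2 (C.fderiv_pr_inj _))
  set A := LinearMap.toContinuousLinearMap A0
  have hAp : HasStrictFDerivAt (fun y => A (C.pr y))
      (ContinuousLinearEquiv.refl ℝ (Euc n) : Euc n →L[ℝ] Euc n) x :=
    (A.hasStrictFDerivAt.comp _ (C.pr_smooth.contDiffAt.hasStrictFDerivAt hn)).congr_fderiv
      (ContinuousLinearMap.ext fun v => LinearMap.congr_fun hA v)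
  obtain ⟨σ, s0, hσ⟩ := X.Loc.rinv (Θ := fun y => A (C.pr y)) (z := x)
    (.of_forall fun y => (A.contDiff.comp C.pr_smooth).contDiffAt)
    (by rw [hAp.hasFDerivAt.fderiv]; exact (ContinuousLinearEquiv.refl ℝ (Euc n)).surjective)
  obtain ⟨R, r1, r2, -, r3⟩ := R208.local_inverse H.sub (Φ := C.pr) (v₀ := x)
    C.pr_smooth.contDiffAt (.of_forall C.pr_mem) (C.fderiv_pr_inj _)
  set q : TT N := (C.pr x, v)
  have c1 : ContDiff ℝ ∞ fun y : TT N => A y.1 := A.contDiff.comp contDiff_fst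
  have t1 : Tendsto (fun y : TT N => A y.1) (𝓝 q) (𝓝 (A (C.pr x))) := c1.continuous.tendsto q
  have t2 : Tendsto (fun y : TT N => σ (A y.1)) (𝓝 q) (𝓝 x) := by
    have := hσ.self_of_nhds.1.continuousAt.tendsto.comp t1
    rwa [s0] at this
  have t3 : Tendsto (fun y : TT N => y.1) (𝓝 q) (𝓝 (C.pr x)) := continuous_fst.tendsto q
  have t4 : Tendsto (fun y : TT N => R y.1) (𝓝 q) (𝓝 x) := by
    have := r1.continuousAt.tendsto.comp t3
    rwa [r2] at this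
  have n0 : G.P (C.pr x) v ≠ 0 := by
    rw [(P_eq_self G (C.pr_mem x)).1 hx.mem]
    exact norm_ne_zero_iff.1 (hx.norm.trans_ne one_ne_zero)
  have key : ∀ᶠ y in 𝓝 q, ContDiffAt ℝ ∞ (fun y : TT N =>
      U G (C.pr (σ (A y.1)), ν (σ (A y.1), y.2))) y ∧
      (y ∈ US G → (C.pr (σ (A y.1)), ν (σ (A y.1), y.2)) = y) := by
    filter_upwards [t1.eventually hσ, t4.eventually hAp.eventually_left_inverse,
      t2.eventually hAp.eventually_left_inverse, t3.eventually (eventually_nhdsWithin_iff.1 r3),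
      (t2.prodMk_nhds (continuous_snd.tendsto q)).eventually
        ((c0.continuous.continuousAt (x := (x, v))).eventually_ne n0)] with y y1 y3 y4 y5 y6
    refine ⟨(hF _ y6).comp (f := fun y : TT N => (σ (A y.1), y.2)) y
      ((y1.1.comp y c1.contDiffAt).prodMk contDiffAt_snd), fun hy => ?_⟩
    have e3 : C.pr (σ (A y.1)) = y.1 := by
      rw [y5 hy.1.1] at y3
      rw [y1.2, y3] at y4
      rw [← y4, y5 hy.1.1]
    have e4 : ‖y.2‖ = 1 := hy.2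
    refine Prod.ext e3 ?_
    simp only [hν, e3, (P_eq_self G hy.1.1).1 hy.1.2, e4, inv_one, one_smul]
  obtain ⟨W, w1, w2, w3⟩ := _root_.eventually_nhds_iff.1 key
  exact ⟨W, _, w2, w3, fun y hy => (w1 y hy).1.contDiffWithinAt,
    fun y hy => congrArg (U G) ((w1 y hy.1).2 hy.2)⟩

/-- EXIT: `same_geod`, `loc_cross` give `(pr y, u) = fl ((pr (hy Z.1), uv Z), -τ)` with `Z, τ`
smooth in the ambient variables `(y, u)` -/
theorem sm_of_chart (h : ∀ γ ∈ GG n, ∃ (f : FF n N m) (z : ZZ m), C.Frm f ∧ z ∈ C.Dm f ∧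
    C.ge f z = γ ∧ ContDiffAt ℝ ∞ (C.Su f) z) : Sm G := by
  refine C.sm_of_pt H fun y u hu => ?_
  obtain ⟨f, z, hf, hz, he, hs⟩ := h _ (C.ep_GG H.a_pos hu)
  obtain ⟨h1, h2⟩ := C.same_geod H hu (C.un_uv H hf hz) (congrArg Prod.fst he).symm
    (congrArg Prod.snd he).symm
  obtain ⟨τ, Z, c1, c2, e1, e2, h3⟩ := C.loc_cross H hm hf hz hu h1 h2
  have c3 : ContDiffAt ℝ ∞ (fun k : Euc n × Euc N => (f, k)) (y, u) :=
    contDiffAt_const.prodMk contDiffAt_id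
  have c4 : ContDiffAt ℝ ∞ (fun z : ZZ m => ((C.pr (C.hy f z.1), C.uv f z) : TT N)) z :=
    (C.pr_smooth.comp ((C.contDiff_hy' f).comp contDiff_fst)).contDiffAt.prodMk
      ((C.contDiffAt_uv H hf hz).comp (f := fun z => (f, z)) z
        (contDiffAt_const.prodMk contDiffAt_id))
  have c5 := contDiffAt_U_fl H hm c4
    (mem_of_superset ((C.isOpen_Dm H hf).mem_nhds hz) fun z hz => C.un_uv H hf hz)
    (C.contDiffAt_U_chart H hm hf hz hs) (-τ (f, y, u))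
  rw [← e2] at c5
  refine ⟨_, c5.comp (f := fun k : Euc n × Euc N => (Z (f, k), -τ (f, k))) (y, u)
    ((c2.comp (y, u) c3).prodMk (c1.comp (y, u) c3).neg), ?_⟩
  filter_upwards [c3.continuousAt.tendsto.eventually h3] with k hk hk'
  obtain ⟨e3, e4⟩ := hk hf hk'
  simp only [Function.comp_apply] at e3 e4 ⊢
  rw [e3, e4, ← C.up_gd hk'.mem, ← fl_add' G hk'.ts, add_neg_cancel, fl_zero]

end Crest.Agent.N221.Cov
end
end

-- ▼ part N221/Ex/Ux

/-! Row 221, block EXIT (helper71): the instance.  If the splitting is smooth on an open set of a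
chart then `U` is smooth. -/

set_option autoImplicit false
set_option linter.unusedSectionVars false
set_option linter.unusedVariables false

open Set Filter Topology Metric
open scoped ContDiff RealInnerProductSpace
open Crest.GeometryTopology.Submanifold
open Crest.Agent.R241.DDefs Crest.Agent.R241.D2
open Crest.Agent.R208.J Crest.Agent.R208.L
open Crest.Agent.N221.Ex

noncomputable section

namespace Crest.Agent.N221

/-- from `JB` to `UB` -/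
lemma ub_of_jb {ι P X Y : Type} [NormedAddCommGroup X] [NormedSpace ℝ X] [NormedAddCommGroup Y]
    [NormedSpace ℝ Y] {F : P → X → Y} {K : Set (P × X)} (h : JB F K) (e : ι → P) {U : ι → Set X}
    (ho : ∀ i, IsOpen (U i)) (hs : ∀ i, ∀ x ∈ U i, ContDiffAt ℝ ∞ (F (e i)) x)
    (hK : ∀ i, ∀ x ∈ U i, (e i, x) ∈ K) : UB U fun i => F (e i) :=
  ⟨ho, fun i x hx => (hs i x hx).contDiffWithinAt, fun k => let ⟨B, hB⟩ := h k
    ⟨max B 1, lt_max_of_lt_right one_pos, fun i x hx => (hB _ (hK i x hx)).trans (le_max_left _ _)⟩⟩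

namespace Cov

variable {n N m : ℕ} {a : ℝ} {S : Set (Euc N)} {G : Geo n N (-(a ^ 2)) S} (C : Cov G)

/-- the atlas -/
def xA (f₀ : FF n N m) (T ε ρ : ℝ) : Atl (Euc m) where
  F := {f : FF n N m // C.Frm f}
  r := C.rr m
  ρ := ρ
  cl f f' := C.dd f.1.1 f'.1.1 ≤ T + 1
  dom f f' := C.dm f.1 f'.1
  T f f' := C.Tf f.1 f'.1
  Gd := {f | ∃ k t, C.Deck k ∧ |t| ≤ T ∧ C.dd f₀.1 (C.gd (k f.1.1) f.1.2.1 t) ≤ ε ∧
    ‖C.vel (k f.1.1) f.1.2.1 t - f₀.2.1‖ ≤ ε}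

/-- the stable side -/
def xS (f₀ : FF n N m) (T ε ρ R : ℝ) : Side (C.xA f₀ T ε ρ) where
  g f z := C.pq f.1 (C.ge f.1 z).1
  nx f := ⟨C.fw f.1 T, f.2.fw C T⟩
  R := R
  κ := 1 / 2

/-- the unstable side -/
def xU (f₀ : FF n N m) (T ε ρ R : ℝ) : Side (C.xA f₀ T ε ρ) where
  g f z q := -C.pq f.1 (C.ge f.1 z).2 q
  nx f := ⟨C.fw f.1 (-T), f.2.fw C (-T)⟩
  R := R
  κ := 1 / 2

variable (H : Hyp n N a S) (hm : m + 1 = n) {f₀ : FF n N m} {T ε ρ R : ℝ}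
include H hm

lemma x_le_rr {z : ZZ m} (hz : z ∈ ball (0 : ZZ m) (C.rr m)) : ‖z‖ ≤ 2 * C.rr m := by
  linarith [mem_ball_zero_iff.1 hz, C.rr_pos H hm]

lemma xA_ok (hT : 0 ≤ T) (hρ : ρ ≤ C.rr m) : (C.xA f₀ T ε ρ).Ok where
  r_pos := C.rr_pos H hm
  ρ_le := hρ
  ub := ub_of_jb (C.jb_Tf H hm (T + 1)) (fun p : (C.xA f₀ T ε ρ).P => (p.1.1.1, p.1.2.1))
    (fun p => C.isOpen_dm H hm p.1.1.2 p.1.2.2)
    (fun p _ hz => C.contDiffAt_Tf H hm p.1.1.2 p.1.2.2 hz) fun p _ hz => ⟨p.1.1.2, p.1.2.2, p.2, hz⟩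
  sub _ _ _ hz := mem_ball_zero_iff.2 hz.1
  maps _ f' _ hz := mem_ball_zero_iff.2 (C.Tf_spec H hm f'.2 hz).1
  ctr f z hz := by
    obtain ⟨f', hf', e1, -, -, h1, h2, -⟩ := C.centre H hm f.2 (mem_ball_zero_iff.1 hz)
    refine ⟨⟨f', hf'⟩, ?_, h1, h2⟩
    change C.dd f.1.1 f'.1 ≤ T + 1
    rw [e1, C.dd_hy f.2]
    linarith [norm_fst_le z, C.x_le_rr H hm hz, (C.rad H hm).le]

/-- a dense set of chart points whose chains return to `Gd` in both directions -/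
lemma x_dense (hf₀ : C.Frm f₀) (hT : 0 < T) (hε : 0 < ε) (σ : ℝ) (hσ : σ = 1 ∨ σ = -1)
    (nx : (C.xA f₀ T ε ρ).F → (C.xA f₀ T ε ρ).F) (hnx : ∀ f, (nx f).1 = C.fw f.1 (σ * T))
    (f : (C.xA f₀ T ε ρ).F) :
    ∃ δ > 0, ∀ z ∈ ball (0 : ZZ m) δ, ∀ e > 0, ∃ z' ∈ ball (0 : ZZ m) δ, ∃ f',
      ‖z' - z‖ < e ∧ (C.xA f₀ T ε ρ).cl f f' ∧ ball 0 δ ⊆ (C.xA f₀ T ε ρ).dom f f' ∧
      (C.xA f₀ T ε ρ).T f f' z' = 0 ∧ ∀ J, ∃ j, J ≤ j ∧ nx^[j] f' ∈ (C.xA f₀ T ε ρ).Gd := by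
  have ha := H.a_pos
  have r0 := C.rr_pos H hm
  obtain ⟨x₀, v₀, h0, htr⟩ := C.exists_trans H trT
  obtain ⟨K, hK, hnear⟩ := C.uv_near H hm
  obtain ⟨K1, δ1, -, δ0, hstep⟩ := C.step H hm 0
  refine ⟨min (C.rr m) (δ1 / (K + 1)), by positivity, fun z hz e he => ?_⟩
  have zr : ‖z‖ < C.rr m := (mem_ball_zero_iff.1 hz).trans_le (min_le_left _ _)
  have zD := C.Dm_of_lt H hm f.2 zr
  have hv := C.un_uv H f.2 zD
  obtain ⟨η, hη, hV⟩ := Metric.mem_nhdsWithin_iff.1 (C.ge_mem_nhds H hm f.2 zD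
    (inter_mem (isOpen_ball.mem_nhds hz) (ball_mem_nhds z he)))
  obtain ⟨d1, p1, c1⟩ := C.dyn_ep_near H hv hη
  obtain ⟨d2, p2, c2⟩ := C.dyn_ep_near H (hv.neg C) hη
  obtain ⟨g, t, hg, -, b1, b2⟩ := (htr _ _ hv (min d1 d2) (lt_min p1 p2) 0).1
  have hu : C.Un (g (C.gd x₀ v₀ t)) (C.vel x₀ v₀ t) := (hg.un C).2 (h0.vel C t)
  have b3 : ‖g (C.gd x₀ v₀ t) - C.hy f.1 z.1‖ < min d1 d2 :=
    (C.norm_sub_le_dd ha.le _ _).trans_lt (by rwa [C.dd_comm])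
  rw [norm_sub_rev] at b2
  rw [lt_min_iff] at b2 b3
  obtain ⟨z', ⟨m1, m2⟩, e1⟩ := hV (a := (C.ep _ (C.vel x₀ v₀ t), C.ep _ (-C.vel x₀ v₀ t)))
    ⟨mem_ball_iff_norm.2 (max_lt (c1 _ _ hu b3.1 b2.1)
      (c2 _ _ (hu.neg C) b3.2 (by rw [← neg_sub', norm_neg]; exact b2.2))), C.ep_GG ha hu⟩
  have zr' : ‖z'‖ < C.rr m := (mem_ball_zero_iff.1 m1).trans_le (min_le_left _ _)
  have zd' : ‖z'‖ < δ1 / (K + 1) := (mem_ball_zero_iff.1 m1).trans_le (min_le_right _ _)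
  obtain ⟨f', hf', e2, e3, -, h1, h2, -⟩ := C.centre H hm f.2 zr'
  have d0 : C.dd f.1.1 f'.1 = ‖z'.1‖ := by rw [e2, C.dd_hy f.2]
  have k0 : δ1 / (K + 1) ≤ δ1 := div_le_self δ0.le (by linarith)
  refine ⟨z', m1, ⟨f', hf'⟩, mem_ball_iff_norm.1 m2, ?_, fun w hw => ?_, h2, fun J => ?_⟩
  · change C.dd f.1.1 f'.1 ≤ T + 1
    linarith [norm_fst_le z', (C.rad H hm).le]
  · refine (hstep f.1 f' w 0 δ1 f.2 hf' (by simp) le_rfl
      (((mem_ball_zero_iff.1 hw).trans_le (min_le_right _ _)).le.trans k0) ?_ ?_).1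
    · rw [C.gd_zero, C.dd_comm, d0]; linarith [norm_fst_le z']
    · rw [C.vel_zero, e3, norm_sub_rev]
      refine (hnear f.1 z' f.2 (by linarith)).trans ?_
      rw [lt_div_iff₀ (by linarith)] at zd'
      nlinarith [norm_nonneg z']
  obtain ⟨s1, s2⟩ := C.same_geod H hu (C.un_uv H f.2 (C.Dm_of_lt H hm f.2 zr'))
    (congrArg Prod.fst e1).symm (congrArg Prod.snd e1).symm
  generalize C.b _ _ - C.b _ _ = s at s1 s2
  rw [← e2, hg.gd_eq C (h0.vel C t).mem, C.gd_add h0.mem] at s1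
  rw [← e3, hg.vel_eq C, C.vel_add h0.mem] at s2
  have it : ∀ j : ℕ, (nx^[j] ⟨f', hf'⟩).1 = C.fw f' (j * (σ * T)) := fun j => by
    induction j with
    | zero => rw [Nat.cast_zero, zero_mul, C.fw_zero]; rfl
    | succ j ih =>
      refine (congrArg Subtype.val (Function.iterate_succ_apply' nx j _)).trans ?_
      rw [hnx, ih, C.fw_add hf']; push_cast; ring_nf
  obtain ⟨k, t', hk, a1, a2, a3⟩ : ∃ k t', C.Deck k ∧ J * T ≤ σ * (t' - (t + s)) ∧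
      C.dd f₀.1 (k (C.gd x₀ v₀ t')) < ε ∧ ‖f₀.2.1 - C.vel x₀ v₀ t'‖ < ε := by
    rcases hσ with rfl | rfl
    · obtain ⟨k, t', hk, a1, a2⟩ := (htr _ _ hf₀.un ε hε (J * T + (t + s))).1
      exact ⟨k, t', hk, by linarith, a2⟩
    · obtain ⟨k, t', hk, a1, a2⟩ := (htr _ _ hf₀.un ε hε (J * T - (t + s))).2
      exact ⟨k, t', hk, by linarith, a2⟩
  obtain ⟨g', hg', i1, -⟩ := hg.inv C
  set u := σ * (t' - (t + s)) with hu'
  have u0 : 0 ≤ u / T := div_nonneg (le_trans (by positivity) a1) hT.le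
  have j1 := Nat.floor_le u0
  have j2 := Nat.lt_floor_add_one (u / T)
  refine ⟨⌊u / T⌋₊, Nat.le_floor ((le_div_iff₀ hT).2 a1), k ∘ g',
    σ * (u - ⌊u / T⌋₊ * T), hk.comp C hg', ?_, ?_⟩
  · rw [le_div_iff₀ hT] at j1
    rw [div_lt_iff₀ hT] at j2
    rw [abs_mul, show |σ| = 1 by rcases hσ with rfl | rfl <;> simp, one_mul, abs_le]
    constructor <;> linarith
  rw [it]
  have σ2 : σ * σ = 1 := by rcases hσ with rfl | rfl <;> norm_num
  have et : t + s + ⌊u / T⌋₊ * (σ * T) + σ * (u - ⌊u / T⌋₊ * T) = t' := by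
    have : σ * u = t' - (t + s) := by rw [hu', ← mul_assoc, σ2, one_mul]
    rw [mul_sub, this]; ring
  have w1 : (C.fw f' (⌊u / T⌋₊ * (σ * T))).1 = g (C.gd x₀ v₀ (t + s + ⌊u / T⌋₊ * (σ * T))) := by
    change C.gd f'.1 f'.2.1 _ = _
    rw [s1, s2, hg.gd_eq C (h0.vel C _).mem, C.gd_add h0.mem]
  have w2 : (C.fw f' (⌊u / T⌋₊ * (σ * T))).2.1 = C.vel x₀ v₀ (t + s + ⌊u / T⌋₊ * (σ * T)) := by
    change C.vel f'.1 f'.2.1 _ = _
    rw [s1, s2, hg.vel_eq C, C.vel_add h0.mem]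
  rw [w1, w2, Function.comp_apply, i1, hk.gd_eq C (h0.vel C _).mem, hk.vel_eq C, C.gd_add h0.mem,
    C.vel_add h0.mem, et, norm_sub_rev]
  exact ⟨a2.le, a3.le⟩

lemma x_ub_pq (e : ZZ m → (C.xA f₀ T ε ρ).F → Euc n)
    (he : ∀ f, ∀ z ∈ ball (0 : ZZ m) (C.rr m), ‖e z f‖ = 1) :
    UB (fun _ : (C.xA f₀ T ε ρ).Q => ball (0 : Euc m) (C.rr m))
      fun p => C.pq p.1.1.1 (e p.1.2 p.1.1) :=
  ub_of_jb (C.jb_pq H (C.rr m)) (fun p : (C.xA f₀ T ε ρ).Q => (p.1.1.1, e p.1.2 p.1.1))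
    (fun _ => isOpen_ball) (fun p _ _ => (C.contDiff_pq H (bas_ne0 (he _ _ p.2)) _).contDiffAt)
    fun p _ hq => ⟨p.1.1.2, he _ _ p.2, (mem_ball_zero_iff.1 hq).le⟩

lemma x_cont_pq {f : FF n N m} (hf : C.Frm f) {e : Euc n × Euc n → Euc n} (he : Continuous e)
    (h1 : ∀ p ∈ GG n, ‖e p‖ = 1) :
    ContinuousOn (fun p : ZZ m × Euc m => C.pq f (e (C.ge f p.1)) p.2)
      (ball 0 (C.rr m) ×ˢ ball 0 (C.rr m)) :=
  (C.jc_pq H).continuousOn.comp (f := fun p : ZZ m × Euc m => ((f, e (C.ge f p.1)), p.2))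
    ((continuousOn_const.prodMk (he.comp_continuousOn ((C.continuousOn_ge H).comp
      (f := fun p : ZZ m × Euc m => (f, p.1)) (by fun_prop) fun _ hp =>
        ⟨hf, C.Dm_of_le H hm hf (C.x_le_rr H hm hp.1)⟩))).prodMk continuousOn_snd)
    fun _ hp => h1 _ (C.ge_GG H hf (C.Dm_of_le H hm hf (C.x_le_rr H hm hp.1)))

/-- the chain along the central stable plaques -/
lemma x_chain : ∃ T : ℝ, 0 < T ∧ ∀ ρ > 0, ∃ R > 0, R ≤ C.rr m ∧ ∀ f f' : FF n N m, C.Frm f →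
    C.Frm f' → C.Ov f f' T → ∀ q ∈ ball (0 : Euc m) R, C.gs f (C.ge f 0).1 q ∈ C.dm f f' ∧
      C.gs f (C.ge f 0).1 q ∈ ball (0 : ZZ m) ρ ∧
      ‖(C.Tf f f' (C.gs f (C.ge f 0).1 q)).1‖ ≤ 1 / 2 * ‖q‖ := by
  obtain ⟨R, T, R0, R1, T0, h⟩ := C.chain_lf H hm
  obtain ⟨b, c, -, h⟩ := h T
  obtain ⟨K, hK, hl⟩ := C.pq_lip H hm
  refine ⟨T, T0, fun ρ hρ => ⟨min R (ρ / (K + 1)), by positivity, (min_le_left _ _).trans R1,
    fun f f' hf hf' ho q hq => ?_⟩⟩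
  have q1 := ball_subset_ball (min_le_left _ _) hq
  have q2 := (mem_ball_zero_iff.1 hq).trans_le (min_le_right _ _)
  obtain ⟨h1, -, h2, -⟩ := (h f f' T hf hf' ho le_rfl le_rfl).1 q q1
  refine ⟨h1, mem_ball_zero_iff.2 ?_, h2⟩
  have z0 := C.Dm_of_lt H hm hf (z := 0) (by simpa using C.rr_pos H hm)
  have h3 := (hl f _ q 0 hf (C.ge_GG H hf z0).1
    (by linarith [mem_ball_zero_iff.1 q1, (C.rad H hm).le]) (by simp)).2
  have h4 : C.pq f (C.ge f 0).1 0 = 0 := congrArg Prod.snd (C.eq_gs H hf z0)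
  rw [h4, sub_zero, sub_zero] at h3
  rw [lt_div_iff₀ (by linarith)] at q2
  rw [gs, Prod.norm_def]
  exact max_lt (by dsimp only; nlinarith [norm_nonneg q]) (by dsimp only; nlinarith [norm_nonneg q])

variable (hf₀ : C.Frm f₀) (hT : 0 < T) (hε : 0 < ε) (R0 : 0 < R) (R1 : R ≤ C.rr m)
  (hc : ∀ f f' : FF n N m, C.Frm f → C.Frm f' → C.Ov f f' T → ∀ q ∈ ball (0 : Euc m) R,
    C.gs f (C.ge f 0).1 q ∈ C.dm f f' ∧ C.gs f (C.ge f 0).1 q ∈ ball (0 : ZZ m) ρ ∧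
      ‖(C.Tf f f' (C.gs f (C.ge f 0).1 q)).1‖ ≤ 1 / 2 * ‖q‖)
include hf₀ hT hε R0 R1 hc

lemma xS_ok : (C.xS f₀ T ε ρ R).Ok where
  R_pos := R0
  R_le := R1
  κ_pos := one_half_pos
  κ_lt := one_half_lt_one
  ub := C.x_ub_pq H hm (fun z f => (C.ge f.1 z).1) fun f _ hz =>
    (C.ge_GG H f.2 (C.Dm_of_le H hm f.2 (C.x_le_rr H hm hz))).1
  cont f := C.x_cont_pq H hm f.2 continuous_fst fun _ h => h.1
  on f _ hz := congrArg Prod.snd (C.eq_gs H f.2 (C.Dm_of_le H hm f.2 (C.x_le_rr H hm hz)))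
  nat f f' _ z hz q hq := by
    have h := (C.Tf_gs H hm f.2 f'.2 ((C.rad H hm).front _ f.2 z
      (C.x_le_rr H hm (mem_ball_zero_iff.2 hz.1))) hq).1
    change (C.Tf _ _ (C.gs _ _ q)).2 = C.pq f'.1 (C.ge f'.1 (C.Tf _ _ z)).1 (C.Tf _ _ (C.gs _ _ q)).1
    rw [(C.Tf_spec H hm f'.2 hz).2, h]; rfl
  cl f := by
    change C.dd f.1.1 (C.fw f.1 T).1 ≤ T + 1
    rw [(C.ov_fw f.1 T).dd C f.2, abs_of_pos hT]; linarith
  zero f := (C.Tf_zero H hm f.2 (f.2.fw C T) (C.ov_fw f.1 T)).2.1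
  con f q hq := hc _ _ f.2 (f.2.fw C T) (C.ov_fw f.1 T) q hq
  dense f := C.x_dense H hm hf₀ hT hε 1 (Or.inl rfl) _ (fun _ => by rw [one_mul]; rfl) f

lemma xU_ok : (C.xU f₀ T ε ρ R).Ok where
  R_pos := R0
  R_le := R1
  κ_pos := one_half_pos
  κ_lt := one_half_lt_one
  ub := (C.x_ub_pq H hm (fun z f => (C.ge f.1 z).2) fun f _ hz =>
    (C.ge_GG H f.2 (C.Dm_of_le H hm f.2 (C.x_le_rr H hm hz))).2.1).clm (-ContinuousLinearMap.id ℝ _)
  cont f := (C.x_cont_pq H hm f.2 continuous_snd fun _ h => h.2.1).neg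
  on f _ hz := congrArg Prod.snd (C.eq_gu H f.2 (C.Dm_of_le H hm f.2 (C.x_le_rr H hm hz)))
  nat f f' _ z hz q hq := by
    have h := (C.Tf_gu H hm f.2 f'.2 (C.back H hm f.2
      (C.x_le_rr H hm (mem_ball_zero_iff.2 hz.1))) hq).1
    change (C.Tf _ _ (C.gu _ _ q)).2 = -C.pq f'.1 (C.ge f'.1 (C.Tf _ _ z)).2 (C.Tf _ _ (C.gu _ _ q)).1
    rw [(C.Tf_spec H hm f'.2 hz).2, h]; rfl
  cl f := by
    change C.dd f.1.1 (C.fw f.1 (-T)).1 ≤ T + 1
    rw [(C.ov_fw f.1 (-T)).dd C f.2, abs_neg, abs_of_pos hT]; linarith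
  zero f := (C.Tf_zero H hm f.2 (f.2.fw C _) (C.ov_fw f.1 _)).2.1
  con f q hq := by
    have hf' := f.2.fw C (-T)
    have ho := (C.ov_fw f.1 (-T)).fp C f.2
    rw [neg_neg] at ho
    obtain ⟨h1, h2, h3⟩ := hc _ _ (f.2.fp C) (hf'.fp C) ho q hq
    have e0 : (C.ge (fp f.1) 0).1 = (C.ge f.1 0).2 := by
      have := C.ge_fp f.1 0
      rw [show flp (0 : ZZ m) = 0 by simp [flp]] at this
      rw [this]; rfl
    rw [e0, C.gs_fp] at h1 h2 h3
    have h4 := C.dm_fp.1 h1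
    rw [(C.Tf_fp H hm f.2 hf' h4).1] at h3
    rw [mem_ball_zero_iff, norm_flp] at h2
    exact ⟨h4, mem_ball_zero_iff.2 h2, h3⟩
  dense f := C.x_dense H hm hf₀ hT hε (-1) (Or.inr rfl) _ (fun _ => by rw [neg_one_mul]; rfl) f

omit hf₀ hT hε R0 R1 hc

lemma x_trans : Trans (C.xS f₀ T ε ρ R) (C.xU f₀ T ε ρ R) where
  low := ⟨a / 16, by have := H.a_pos; positivity, fun f z hz e => by
    have := C.Su_Ss_low H hm f.2 (C.x_le_rr H hm hz) e
    have e1 : (C.xU f₀ T ε ρ R).sl f z = C.Su f.1 z := fderiv_fun_neg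
    rw [e1]; exact this⟩
  corner f e he := by
    obtain ⟨K, δ, hK, hδ, h⟩ := C.prod_box' H hm
    have r0 := C.rr_pos H hm
    refine ⟨min δ (min e (C.rr m) / (K + 1)), by positivity, fun z hz z' hz' => ?_⟩
    obtain ⟨w, w1, w2⟩ := h f.1 z' z _ f.2 (min_le_left _ _) (mem_ball_zero_iff.1 hz').le
      (mem_ball_zero_iff.1 hz).le
    have w3 : ‖w‖ < min e (C.rr m) := by
      have h1 : min δ (min e (C.rr m) / (K + 1)) * (K + 1) ≤ min e (C.rr m) :=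
        (le_div_iff₀ (by linarith)).1 (min_le_right _ _)
      have h2 : 0 < min δ (min e (C.rr m) / (K + 1)) := by positivity
      nlinarith
    rw [lt_min_iff] at w3
    have wD := C.Dm_of_lt H hm f.2 w3.2
    have e1 := congrArg Prod.snd (C.eq_gs H f.2 wD)
    have e2 := congrArg Prod.snd (C.eq_gu H f.2 wD)
    rw [w2] at e1 e2
    exact ⟨w.1, mem_ball_zero_iff.2 ((norm_fst_le w).trans_lt w3.1), e2.trans e1.symm⟩

/-- the conjugation cocycle -/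
def xC (f f' : FF n N m) (z : ZZ m) : (ZZ m →L[ℝ] ZZ m) →L[ℝ] (ZZ m →L[ℝ] ZZ m) :=
  (ContinuousLinearMap.compL ℝ _ _ _ (fderiv ℝ (C.Tf f' f) (C.Tf f f' z))).comp
    ((ContinuousLinearMap.compL ℝ _ _ _).flip (fderiv ℝ (C.Tf f f') z))

lemma xC_rel {f f' : FF n N m} (hf : C.Frm f) (hf' : C.Frm f') {z : ZZ m} (hz : z ∈ C.dm f f') :
    C.pj f z = C.xC f f' z (C.pj f' (C.Tf f f' z)) := by
  refine ContinuousLinearMap.ext fun x => ?_
  have := congrArg (fun A : ZZ m →L[ℝ] ZZ m => A x) (C.pj_Tf H hm hf hf' hz)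
  change _ = fderiv ℝ (C.Tf f' f) _ (C.pj f' _ (fderiv ℝ (C.Tf f f') z x))
  simp only [ContinuousLinearMap.comp_apply] at this
  rw [← this, C.fderiv_Tf_symm H hm hf hf' hz]

lemma xC_ub (hT : 0 ≤ T) : UB (fun p : (C.xA f₀ T ε 0).P => C.dm p.1.1.1 p.1.2.1)
    fun p => C.xC p.1.1.1 p.1.2.1 := by
  have h := (C.xA_ok H hm (f₀ := f₀) (ε := ε) hT (C.rr_pos H hm).le).ub
  have h' := h.fderiv.mono (fun p : (C.xA f₀ T ε 0).P => ⟨(p.1.2, p.1.1), by
    have := p.2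
    change C.dd _ _ ≤ _ at this ⊢
    rwa [C.dd_comm]⟩) (fun p => h.op _) fun _ => subset_rfl
  exact ((h'.comp h fun p z hz => (C.Tf_symm H hm p.1.1.2 p.1.2.2 hz).1).clm _).clm_comp
    (h.fderiv.clm _)

/-- EXIT -/
theorem exitT {f : FF n N m} (hf : C.Frm f) {z : ZZ m} (hz : ‖z‖ < C.rr m)
    (h : ∀ᶠ w in 𝓝 z, ContDiffAt ℝ ∞ (C.pj f) w) : Sm G := by
  have ha := H.a_pos
  have r0 := C.rr_pos H hm
  obtain ⟨f₀, hf₀, e1, -, -, h1, h2, -⟩ := C.centre H hm hf hz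
  obtain ⟨T, hT, hch⟩ := C.x_chain H hm
  have hub := fun f₀ => C.xC_ub H hm (f₀ := f₀) (ε := 0) hT.le
  -- `pj f₀` is smooth on a ball
  obtain ⟨h3, h4, -⟩ := C.Tf_symm H hm hf hf₀ h1
  rw [h2] at h3 h4
  have hcl : C.dd f₀.1 f.1 ≤ T + 1 := by
    rw [C.dd_comm, e1, C.dd_hy hf]
    linarith [norm_fst_le z, (C.rad H hm).le]
  have ev : ∀ᶠ w in 𝓝 (0 : ZZ m), ContDiffAt ℝ ∞ (C.pj f₀) w := by
    have o := C.isOpen_dm H hm hf₀ hf
    filter_upwards [o.mem_nhds h3, (C.contDiffAt_Tf H hm hf₀ hf h3).continuousAt.eventually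
      (h4.symm ▸ h)] with w w1 w2
    exact (((hub f₀).at (i := ⟨(⟨f₀, hf₀⟩, ⟨f, hf⟩), hcl⟩) w1).clm_apply
      (w2.comp w (C.contDiffAt_Tf H hm hf₀ hf w1))).congr_of_eventuallyEq
      (mem_of_superset (o.mem_nhds w1) fun y hy => C.xC_rel H hm hf₀ hf hy)
  obtain ⟨β, hβ, hs⟩ := Metric.eventually_nhds_iff_ball.1 ev
  obtain ⟨K, δ, hK, hδ, hstep⟩ := C.step H hm T
  set ε := min (min δ (C.rr m)) (β / 4 / K) with hε
  have ε0 : 0 < ε := by positivity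
  have ε1 : ε ≤ δ := (min_le_left _ _).trans (min_le_left _ _)
  have ε2 : ε ≤ C.rr m := (min_le_left _ _).trans (min_le_right _ _)
  have ε3 : K * ε ≤ β / 4 := (le_div_iff₀' hK).1 (min_le_right _ _)
  obtain ⟨R, R0, R1, hc⟩ := hch ε ε0
  have hA := C.xA_ok H hm (f₀ := f₀) (ε := ε) hT.le ε2
  obtain ⟨M, M0, hM⟩ := C.norm_pj H hm
  have sec : Sec (C.xA f₀ T ε ε) (fun f f' => C.xC f.1 f'.1) fun f => C.pj f.1 := by
    refine ⟨hub f₀, fun f => (C.continuousOn_pj' H hm f.2).mono fun w hw =>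
      mem_closedBall_zero_iff.2 (C.x_le_rr H hm hw), ⟨M, M0, fun f w hw =>
        (hM f.1 w f.2 (C.x_le_rr H hm hw)).2.2⟩, fun f f' _ w hw => C.xC_rel H hm f.2 f'.2 hw, ?_⟩
    have hg : ∀ f : (C.xA f₀ T ε ε).Gd, ∃ k, C.Deck k ∧ C.dd (k f.1.1.1) f₀.1 ≤ T + 1 ∧
        ∀ w ∈ ball (0 : ZZ m) ε, w ∈ C.dm (fg k f.1.1) f₀ ∧
          C.Tf (fg k f.1.1) f₀ w ∈ ball (0 : ZZ m) (β / 2) := fun ⟨f, k, t, hk, a1, a2, a3⟩ =>
      ⟨k, hk, by
        have := C.dd_triangle ha.le (k f.1.1) (C.gd (k f.1.1) f.1.2.1 t) f₀.1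
        rw [Un.dd_gd_zero C ((hk.un C).2 f.2.un), C.dd_comm (C.gd _ _ _)] at this
        change C.dd (k f.1.1) f₀.1 ≤ T + 1
        linarith [(C.rad H hm).le], fun w hw => by
        obtain ⟨b1, b2, -⟩ := hstep (fg k f.1) f₀ w t ε (f.2.fg C hk) hf₀ a1 ε1
          (mem_ball_zero_iff.1 hw).le a2 a3
        exact ⟨b1, mem_ball_zero_iff.2 (by linarith)⟩⟩
    choose k hk d1 d2 using hg
    let e : (C.xA f₀ T ε ε).Gd → (C.xA f₀ T ε ε).P := fun f =>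
      ⟨(⟨fg (k f) f.1.1, f.1.2.fg C (hk f)⟩, ⟨f₀, hf₀⟩), d1 f⟩
    have u1 := hA.ub.mono e (fun _ => isOpen_ball) fun f w hw => (d2 f w hw).1
    have u2 := (hub f₀).mono e (fun _ => isOpen_ball) fun f w hw => (d2 f w hw).1
    have u3 := UB.of_compact (U := fun _ : (C.xA f₀ T ε ε).Gd => ball (0 : ZZ m) (β / 2))
      isOpen_ball (fun w hw => (hs w hw).contDiffWithinAt) (isCompact_closedBall 0 (β / 2))
      (closedBall_subset_ball (by linarith)) (fun _ => isOpen_ball) fun _ => ball_subset_closedBall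
    refine (u2.clm_apply (u3.comp u1 fun f w hw => (d2 f w hw).2)).congr fun f w hw => ?_
    exact (C.pj_fg H hm f.1.2 (hk f) (C.Dm_of_lt H hm f.1.2
      ((mem_ball_zero_iff.1 hw).trans_le ε2))).symm.trans
      (C.xC_rel H hm (f.1.2.fg C (hk f)) hf₀ (d2 f w hw).1)
  refine C.sm_of_chart H hm fun γ hγ => ?_
  obtain ⟨f, hf, -, e⟩ := C.exists_ge_zero H hm (ξ := γ.1) (η := γ.2) hγ 0
  exact ⟨f, 0, hf, C.Dm_of_lt H hm hf (by simpa), e, C.contDiffAt_Su H hm hf (by simpa)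
    ((sec.smooth hA (C.xS_ok H hm hf₀ hT ε0 R0 R1 hc) (C.xU_ok H hm hf₀ hT ε0 R0 R1 hc)
      (C.x_trans H hm) ⟨f, hf⟩).contDiffAt (ball_mem_nhds _ r0))⟩

end Cov

theorem uxS : UxS := fun _ _ _ _ _ _ C _ H hm _ hf ⟨_, hO, ⟨_, hz⟩, hs, h⟩ =>
  C.exitT H hm hf (mem_ball_zero_iff.1 (hs hz))
    (mem_of_superset (hO.mem_nhds hz) fun _ hw => h.contDiffAt (hO.mem_nhds hw))

end Crest.Agent.N221
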